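import Vale.Agent.P163.Bdl.B1

/-!
The recursion step of the Mermin-Wagner argument for an arbitrary vector-like triple of
observables, and its application to the nearest neighbour currents.
-/

open MeasureTheory Filter Topology
open scoped RealInnerProductSpace

set_option linter.unusedSectionVars false

namespace Vale.Agent.P163.H841

open Vale.Agent.P163 Vale.Agent.P163.MW

variable {n : ℕ}

/-- The recursion step for a vector-like triple of observables. -/
theorem abs_step (hn : 3 ≤ n) {β : ℝ} (hβ : 0 ≤ β) {L : ℤ} (hL : 0 < L)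
    (ht : tt n β L ≤ 1 / 1024) {m : ℤ} (hm : 0 < m) (hmβ : 439 * β ≤ m) {M : ℝ} (hM : 0 ≤ M)
    {R : ℤ} (hR : R = m * L) (T : Tri n) {FA FB FC : (Z2 → Spin n) → ℝ}
    (cA : Continuous FA) (cB : Continuous FB) (cC : Continuous FC)
    (bA : ∀ σ, |FA σ| ≤ 1) (bB : ∀ σ, |FB σ| ≤ 1) (bC : ∀ σ, |FC σ| ≤ 1)
    (mB : ∀ σ, |FB σ| ≤ M) (mC : ∀ σ, |FC σ| ≤ M)
    (hAB : ∀ t σ, FB (act (T.pA.rg fun x => t * cut R x) σ) =
      Real.cos t * FB σ + (1 * Real.sin t) * FA σ)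
    (hAC : ∀ t σ, FC (act (T.pC.rg fun x => t * cut R x) σ) =
      Real.cos t * FC σ + (-1 * Real.sin t) * FA σ)
    (nB : ∀ k ∈ cells (4 * m), NoDep (inn (corner (-(2 * R), -(2 * R)) L k) L) FB)
    (nC : ∀ k ∈ cells (4 * m), NoDep (inn (corner (-(2 * R), -(2 * R)) L k) L) FC)
    (σ : Z2 → Spin n) :
    Gc β (-(2 * R), -(2 * R)) (4 * m * L) FA σ ≤ M / 4 := by
  have : NeZero n := ⟨by omega⟩
  have hmr : (0 : ℝ) < m := by exact_mod_cast hm
  have hRpos : 0 < R := by rw [hR]; exact mul_pos hm hL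
  have hW := continuous_W (n := n) β (-(2 * R), -(2 * R)) (4 * m * L)
  have hA := ward_bound (σ := σ) hβ hL hm hR T.pA (F := FB) (G := FA)
    cB cA bB bA hM mB (ε := 1) (by norm_num) hAB nB
  have hC := ward_bound (σ := σ) hβ hL hm hR T.pC (F := FC) (G := FA)
    cC cA bC bA hM mC (ε := -1) (by norm_num) hAC nC
  have hB := sum_St_nonneg (σ := σ) hβ hL hm hR T.pB
  have hTf := sum_Tf_le (σ := σ) hβ hL ht hm hR T
  have hsum : ∑ k ∈ cells (4 * m), Gc β (-(2 * R), -(2 * R)) (4 * m * L)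
        (Tf β (corner (-(2 * R), -(2 * R)) L k) L (cut R) T) σ =
      (∑ k ∈ cells (4 * m), Gc β (-(2 * R), -(2 * R)) (4 * m * L)
        (St β (corner (-(2 * R), -(2 * R)) L k) L (cut R) T.pA.X) σ +
      ∑ k ∈ cells (4 * m), Gc β (-(2 * R), -(2 * R)) (4 * m * L)
        (St β (corner (-(2 * R), -(2 * R)) L k) L (cut R) T.pB.X) σ) +
      ∑ k ∈ cells (4 * m), Gc β (-(2 * R), -(2 * R)) (4 * m * L)
        (St β (corner (-(2 * R), -(2 * R)) L k) L (cut R) T.pC.X) σ := by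
    rw [← Finset.sum_add_distrib, ← Finset.sum_add_distrib]
    refine Finset.sum_congr rfl fun k hk => ?_
    have c1 := continuous_St (n := n) β (corner (-(2 * R), -(2 * R)) L k) L (cut R) T.pA.X
    have c2 := continuous_St (n := n) β (corner (-(2 * R), -(2 * R)) L k) L (cut R) T.pB.X
    have c3 := continuous_St (n := n) β (corner (-(2 * R), -(2 * R)) L k) L (cut R) T.pC.X
    have c12 : Continuous fun σ : Z2 → Spin n =>
        St β (corner (-(2 * R), -(2 * R)) L k) L (cut R) T.pA.X σ +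
        St β (corner (-(2 * R), -(2 * R)) L k) L (cut R) T.pB.X σ := c1.add c2
    unfold Gc
    rw [← Gb_add hW c1 c2, ← Gb_add hW c12 c3]
    rfl
  rw [hsum] at hTf
  have h48 : 48 * β / m ≤ 7 / 64 := by
    rw [div_le_iff₀ hmr]; linarith only [hmr, hmβ]
  set SA := ∑ k ∈ cells (4 * m), Gc β (-(2 * R), -(2 * R)) (4 * m * L)
        (St β (corner (-(2 * R), -(2 * R)) L k) L (cut R) T.pA.X) σ
  set SB := ∑ k ∈ cells (4 * m), Gc β (-(2 * R), -(2 * R)) (4 * m * L)
        (St β (corner (-(2 * R), -(2 * R)) L k) L (cut R) T.pB.X) σ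
  set SC := ∑ k ∈ cells (4 * m), Gc β (-(2 * R), -(2 * R)) (4 * m * L)
        (St β (corner (-(2 * R), -(2 * R)) L k) L (cut R) T.pC.X) σ
  set v := Gc β (-(2 * R), -(2 * R)) (4 * m * L) FA σ
  have hfin : 2 * v ^ 2 ≤ M ^ 2 * (1 / 8) := by
    have h1 : M ^ 2 * (SA + SC) ≤ M ^ 2 * (1 / 8) :=
      mul_le_mul_of_nonneg_left (by linarith only [h48, hB, hTf]) (sq_nonneg M)
    linarith only [hA, hC, h1]
  have h9 : v ^ 2 ≤ (M / 4) ^ 2 := by
    have : (M / 4) ^ 2 = M ^ 2 * (1 / 8) / 2 := by ring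
    linarith only [hfin]
  exact (abs_le_of_sq_le_sq' h9 (by (clear * - hM; positivity))).2

/-- the expectation of a local observable in a box, as a function of the boundary spins, does not
depend on the spins of the open cells -/
lemma noDep_cell {R m L : ℤ} (hL : 0 < L) (hm : 0 < m) (hR : R = m * L)
    {G : (Z2 → Spin n) → ℝ} (h1 : NoDep (inn (-R, -R) (2 * R)) G)
    (h2 : ∀ D : Finset Z2, Disjoint D (clo (-R, -R) (2 * R)) → NoDep D G) {k : Z2}
    (hk : k ∈ cells (4 * m)) :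
    NoDep (inn (corner (-(2 * R), -(2 * R)) L k) L) G := by
  have hRpos : 0 < R := by rw [hR]; exact mul_pos hm hL
  rw [mem_cells] at hk
  have mul_le : ∀ i j : ℤ, i ≤ j → L * i ≤ L * j := fun i j h =>
    mul_le_mul_of_nonneg_left h hL.le
  have f1 : L * m = R := by rw [hR]; ring
  have f3 : L * (3 * m) = 3 * R := by rw [hR]; ring
  have g1 : L * (k.1 + 1) = L * k.1 + L := by ring
  have g2 : L * (k.2 + 1) = L * k.2 + L := by ring
  have hc : ∀ q : Z2, q ∈ inn (corner (-(2 * R), -(2 * R)) L k) L ↔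
      (-(2 * R) + L * k.1 < q.1 ∧ q.1 < -(2 * R) + L * k.1 + L) ∧
      (-(2 * R) + L * k.2 < q.2 ∧ q.2 < -(2 * R) + L * k.2 + L) := by
    intro q
    rw [mem_inn]
    rfl
  by_cases hin : (m ≤ k.1 ∧ k.1 < 3 * m) ∧ (m ≤ k.2 ∧ k.2 < 3 * m)
  · refine h1.mono fun q hq => ?_
    rw [hc] at hq
    rw [mem_inn]
    simp only
    have i1 := mul_le m k.1 hin.1.1
    have i2 := mul_le (k.1 + 1) (3 * m) (by omega)
    have i3 := mul_le m k.2 hin.2.1
    have i4 := mul_le (k.2 + 1) (3 * m) (by omega)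
    omega
  · refine h2 _ ?_
    rw [Finset.disjoint_left]
    intro q hq hq2
    rw [hc] at hq
    rw [mem_clo] at hq2
    simp only at hq2
    apply hin
    refine ⟨⟨?_, ?_⟩, ?_, ?_⟩
    · by_contra hlt
      have := mul_le (k.1 + 1) m (by omega)
      omega
    · by_contra hlt
      have := mul_le (3 * m) k.1 (by omega)
      omega
    · by_contra hlt
      have := mul_le (k.2 + 1) m (by omega)
      omega
    · by_contra hlt
      have := mul_le (3 * m) k.2 (by omega)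
      omega

/-! ### The nearest neighbour current -/

/-- the current of the plane `P` from `u` to `v` -/
noncomputable def cur (P : Pl n) (u v : Z2) (σ : Z2 → Spin n) : ℝ :=
  ⟪P.X (σ u : E n), (σ v : E n)⟫

lemma continuous_cur (P : Pl n) (u v : Z2) : Continuous (cur P u v) := by
  unfold cur
  have h1 : Continuous fun σ : Z2 → Spin n => (σ u : E n) :=
    continuous_subtype_val.comp (continuous_apply u)
  have h2 : Continuous fun σ : Z2 → Spin n => (σ v : E n) :=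
    continuous_subtype_val.comp (continuous_apply v)
  exact ((P.X).continuous.comp h1).inner h2

lemma cur_abs_le (P : Pl n) (u v : Z2) (σ : Z2 → Spin n) : |cur P u v σ| ≤ 1 :=
  mw_inner_X_le P _ _

/-- `u` and `v` are at distance one, in a coordinate direction, the second above or to the right -/
def MA (n : ℕ) (β : ℝ) (R : ℤ) (M : ℝ) : Prop :=
  ∀ (e : Z2), (e = (1, 0) ∨ e = (0, 1)) → ∀ (P : Pl n) (σ : Z2 → Spin n),
    Gc β (-R, -R) (2 * R) (cur P (0, 0) e) σ ≤ M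

/-- conditional expectation of the current -/
noncomputable def Fc (β : ℝ) (R : ℤ) (P : Pl n) (e : Z2) : (Z2 → Spin n) → ℝ :=
  Gc β (-R, -R) (2 * R) (cur P (0, 0) e)

/-- the plane with the opposite orientation -/
def flip (P : Pl n) : Pl n := ⟨P.b, P.a, P.hb, P.ha, by rw [real_inner_comm]; exact P.hab⟩

lemma cur_flip (P : Pl n) (u v : Z2) (σ : Z2 → Spin n) :
    cur (flip P) u v σ = -cur P u v σ := by
  unfold cur
  rw [mw_inner_X, mw_inner_X]
  unfold flip
  ring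

section inner

variable [NeZero n] {β : ℝ} {R : ℤ}

lemma continuous_Fc (P : Pl n) (e : Z2) : Continuous (Fc β R P e) :=
  continuous_Gc β _ _ (continuous_cur P _ _)

lemma Fc_flip (P : Pl n) (e : Z2) (σ : Z2 → Spin n) : Fc β R (flip P) e σ = -Fc β R P e σ := by
  unfold Fc
  have h : cur (flip P) (0, 0) e = fun σ => (-1) * cur P (0, 0) e σ := by
    funext τ; rw [cur_flip]; ring
  rw [h]
  unfold Gc
  rw [Gb_const_mul]
  ring

lemma Fc_abs_le_one (P : Pl n) (e : Z2) (σ : Z2 → Spin n) : |Fc β R P e σ| ≤ 1 :=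
  Gb_abs_le (continuous_W _ _ _) (continuous_cur P _ _) (cur_abs_le P _ _) σ

lemma Fc_abs_le {M : ℝ} (hM : MA n β R M) (P : Pl n) {e : Z2} (he : e = (1, 0) ∨ e = (0, 1))
    (σ : Z2 → Spin n) : |Fc β R P e σ| ≤ M := by
  rw [abs_le]
  constructor
  · have h1 := hM e he (flip P) σ
    have h2 := Fc_flip (β := β) (R := R) P e σ
    unfold Fc at h2 ⊢
    linarith
  · exact hM e he P σ

lemma mem_clo_e (hR : 0 < R) {e : Z2} (he : e = (1, 0) ∨ e = (0, 1)) :
    e ∈ clo (-R, -R) (2 * R) := by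
  rw [mem_clo]
  rcases he with rfl | rfl <;> simp only <;> omega

/-- action of a rotation which is constant on the closed inner box -/
lemma Fc_act (hR : 0 < R) (Q P : Pl n) {f : Z2 → ℝ} {t : ℝ} {e : Z2}
    (he : e = (1, 0) ∨ e = (0, 1))
    (hf : ∀ x ∈ clo (-R, -R) (2 * R), f x = t) (σ : Z2 → Spin n) :
    Fc β R Q e (act (P.rg f) σ) =
      Gc β (-R, -R) (2 * R) (fun σ => ⟪Q.X (P.rot t (σ (0, 0))), P.rot t (σ e)⟫) σ := by
  have hW := continuous_W (n := n) β (-R, -R) (2 * R)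
  unfold Fc Gc
  rw [Gb_act _ hW (continuous_cur Q _ _)]
  have h0 : (0, 0) ∈ clo (-R, -R) (2 * R) := by
    rw [mem_clo]; simp only; omega
  have h1 := mem_clo_e hR he
  have hE : ∀ σ : Z2 → Spin n, W β (-R, -R) (2 * R) (act (P.rg f) σ) -
      W β (-R, -R) (2 * R) σ = 0 := by
    intro σ
    unfold W PSb
    rw [← PS_sub]
    rw [← PS_zero (p := (-R, -R)) (l := 2 * R)]
    refine PS_congr fun u v _ hu hv => ?_
    beta_reduce
    rw [coe_act, coe_act]
    unfold Pl.rg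
    beta_reduce
    rw [hf u hu, hf v hv, LinearIsometryEquiv.inner_map_map]
    ring
  have e1 : (fun σ : Z2 → Spin n => cur Q (0, 0) e (act (P.rg f) σ) *
      Real.exp (W β (-R, -R) (2 * R) (act (P.rg f) σ) - W β (-R, -R) (2 * R) σ)) =
      fun σ => ⟪Q.X (P.rot t (σ (0, 0))), P.rot t (σ e)⟫ := by
    funext τ
    rw [hE, Real.exp_zero, mul_one]
    unfold cur
    rw [coe_act, coe_act]
    unfold Pl.rg
    rw [hf _ h0, hf _ h1]
  have e2 : (fun σ : Z2 → Spin n => Real.exp (W β (-R, -R) (2 * R) (act (P.rg f) σ) -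
      W β (-R, -R) (2 * R) σ)) = fun _ => 1 := by
    funext τ
    rw [hE, Real.exp_zero]
  rw [e1, e2, Gb_const hW, div_one]

lemma inner_c_rot (P : Pl n) {c : E n} (h1 : ⟪c, P.a⟫ = 0) (h2 : ⟪c, P.b⟫ = 0) (t : ℝ)
    (x : E n) : ⟪c, P.rot t x⟫ = ⟪c, x⟫ := by
  rw [mw_rot_apply]
  simp only [inner_add_right, inner_sub_right, inner_smul_right, h1, h2]
  ring

lemma Fc_act_AB (hR : 0 < R) (T : Tri n) {f : Z2 → ℝ} {t : ℝ} {e : Z2}
    (he : e = (1, 0) ∨ e = (0, 1))
    (hf : ∀ x ∈ clo (-R, -R) (2 * R), f x = t) (σ : Z2 → Spin n) :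
    Fc β R T.pC e (act (T.pA.rg f) σ) =
      Real.cos t * Fc β R T.pC e σ + Real.sin t * Fc β R T.pB e σ := by
  have hW := continuous_W (n := n) β (-R, -R) (2 * R)
  rw [Fc_act hR T.pC T.pA he hf]
  have hcb : ⟪T.c, T.b⟫ = 0 := by rw [real_inner_comm]; exact T.hbc
  have h : (fun σ : Z2 → Spin n => ⟪T.pC.X (T.pA.rot t (σ (0, 0))), T.pA.rot t (σ e)⟫) =
      fun σ => Real.cos t * cur T.pC (0, 0) e σ + Real.sin t * cur T.pB (0, 0) e σ := by
    funext τ
    unfold cur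
    rw [mw_inner_X, mw_inner_X, mw_inner_X]
    have a1 := fun x => mw_inner_a T.pA t x
    have c1 := fun x => inner_c_rot T.pA (c := T.c) T.hca hcb t x
    have e1 : T.pC.a = T.c := rfl
    have e2 : T.pC.b = T.a := rfl
    have e3 : T.pB.a = T.b := rfl
    have e4 : T.pB.b = T.c := rfl
    have e5 : T.pA.a = T.a := rfl
    have e6 : T.pA.b = T.b := rfl
    rw [e1, e2, e3, e4]
    rw [e5, e6] at a1
    rw [a1, a1, c1, c1]
    ring
  rw [h]
  unfold Gc Fc
  rw [Gb_add hW ((continuous_cur _ _ _).const_mul _) ((continuous_cur _ _ _).const_mul _),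
    Gb_const_mul, Gb_const_mul]

lemma Fc_act_AC (hR : 0 < R) (T : Tri n) {f : Z2 → ℝ} {t : ℝ} {e : Z2}
    (he : e = (1, 0) ∨ e = (0, 1))
    (hf : ∀ x ∈ clo (-R, -R) (2 * R), f x = t) (σ : Z2 → Spin n) :
    Fc β R T.pA e (act (T.pC.rg f) σ) =
      Real.cos t * Fc β R T.pA e σ + (-Real.sin t) * Fc β R T.pB e σ := by
  have hW := continuous_W (n := n) β (-R, -R) (2 * R)
  rw [Fc_act hR T.pA T.pC he hf]
  have hba : ⟪T.b, T.a⟫ = 0 := by rw [real_inner_comm]; exact T.hab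
  have h : (fun σ : Z2 → Spin n => ⟪T.pA.X (T.pC.rot t (σ (0, 0))), T.pC.rot t (σ e)⟫) =
      fun σ => Real.cos t * cur T.pA (0, 0) e σ + (-Real.sin t) * cur T.pB (0, 0) e σ := by
    funext τ
    unfold cur
    rw [mw_inner_X, mw_inner_X, mw_inner_X]
    have a1 := fun x => mw_inner_b T.pC t x
    have c1 := fun x => inner_c_rot T.pC (c := T.b) T.hbc hba t x
    have e1 : T.pC.a = T.c := rfl
    have e2 : T.pC.b = T.a := rfl
    have e3 : T.pB.a = T.b := rfl
    have e4 : T.pB.b = T.c := rfl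
    have e5 : T.pA.a = T.a := rfl
    have e6 : T.pA.b = T.b := rfl
    rw [e3, e4, e5, e6]
    rw [e1, e2] at a1
    rw [a1, a1, c1, c1]
    ring
  rw [h]
  unfold Gc Fc
  rw [Gb_add hW ((continuous_cur _ _ _).const_mul _) ((continuous_cur _ _ _).const_mul _),
    Gb_const_mul, Gb_const_mul]

lemma NoDep_Fc_out (hR : 0 < R) (P : Pl n) {e : Z2} (he : e = (1, 0) ∨ e = (0, 1))
    {D : Finset Z2} (hD : Disjoint D (clo (-R, -R) (2 * R))) : NoDep D (Fc β R P e) := by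
  have h0 : (0, 0) ∈ clo (-R, -R) (2 * R) := by
    rw [mem_clo]; simp only; omega
  have h1 := mem_clo_e hR he
  refine NoDep.Gb ?_ ((locIn_PSb _ _ _).noDep hD)
  intro ξ σ
  unfold cur
  rw [Finset.piecewise_eq_of_notMem _ _ _ (Finset.disjoint_right.1 hD h0),
    Finset.piecewise_eq_of_notMem _ _ _ (Finset.disjoint_right.1 hD h1)]

end inner

/-- two orthonormal vectors are completed by a third one -/
lemma exists_tri_plane (hn : 3 ≤ n) (P : Pl n) : ∃ T : Tri n, T.pB = P := by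
  let S : Submodule ℝ (E n) := Submodule.span ℝ {P.a, P.b}
  have h1 : Module.finrank ℝ S ≤ 2 := by
    have := finrank_span_le_card (R := ℝ) ({P.a, P.b} : Set (E n))
    refine this.trans ?_
    rw [Set.toFinset_insert, Set.toFinset_singleton]
    exact Finset.card_le_two
  have h2 := Submodule.finrank_add_finrank_orthogonal S
  have h3 : Module.finrank ℝ (E n) = n := by simp only [finrank_euclideanSpace, Fintype.card_fin]
  have h4 : 1 ≤ Module.finrank ℝ Sᗮ := by omega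
  let B := stdOrthonormalBasis ℝ Sᗮ
  let i0 : Fin (Module.finrank ℝ Sᗮ) := ⟨0, by omega⟩
  have hb : ‖((B i0 : Sᗮ) : E n)‖ = 1 := B.orthonormal.1 i0
  have hmem := (B i0).2
  rw [Submodule.mem_orthogonal] at hmem
  have ha : ⟪P.a, ((B i0 : Sᗮ) : E n)⟫ = 0 := hmem _ (Submodule.subset_span (by simp))
  have hb' : ⟪P.b, ((B i0 : Sᗮ) : E n)⟫ = 0 := hmem _ (Submodule.subset_span (by simp))
  exact ⟨⟨B i0, P.a, P.b, hb, P.ha, P.hb, by rw [real_inner_comm]; exact ha, P.hab, hb'⟩, rfl⟩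

/-- The recursion for the current. -/
theorem MA_step (hn : 3 ≤ n) {β : ℝ} (hβ : 0 ≤ β) {L : ℤ} (hL : 0 < L)
    (ht : tt n β L ≤ 1 / 1024) {m : ℤ} (hm : 0 < m) (hmβ : 439 * β ≤ m) {M : ℝ} (hM : 0 ≤ M)
    (hMA : MA n β (m * L) M) : MA n β (2 * (m * L)) (M / 4) := by
  have : NeZero n := ⟨by omega⟩
  obtain ⟨R, hR⟩ : ∃ R, R = m * L := ⟨_, rfl⟩
  rw [← hR] at hMA ⊢
  have hRpos : 0 < R := by rw [hR]; exact mul_pos hm hL
  intro e he P σ
  have hside : 2 * (2 * R) = 4 * m * L := by rw [hR]; ring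
  rw [hside]
  have hW := continuous_W (n := n) β (-(2 * R), -(2 * R)) (4 * m * L)
  obtain ⟨T, hT⟩ := exists_tri_plane hn P
  have hsub : SubBox (-R, -R) (2 * R) (-(2 * R), -(2 * R)) (4 * m * L) := by
    rw [← hside]
    simp only [SubBox]
    omega
  have e0 : Gc β (-(2 * R), -(2 * R)) (4 * m * L) (Fc β R P e) σ =
      Gc β (-(2 * R), -(2 * R)) (4 * m * L) (cur P (0, 0) e) σ :=
    Gb_Gb hsub.inn_sub hW (continuous_W _ _ _) (continuous_cur P _ _) (noDep_sub_PSb hsub _) σ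
  rw [← e0, ← hT]
  have hcut : ∀ t : ℝ, ∀ x ∈ clo (-R, -R) (2 * R), t * cut R x = t := fun t x hx => by
    rw [cut_in hRpos hx, mul_one]
  refine abs_step hn hβ hL ht hm hmβ hM hR T (FB := Fc β R T.pC e) (FC := Fc β R T.pA e)
    (continuous_Fc _ _) (continuous_Fc _ _) (continuous_Fc _ _) (Fc_abs_le_one _ _)
    (Fc_abs_le_one _ _) (Fc_abs_le_one _ _) (Fc_abs_le hMA _ he) (Fc_abs_le hMA _ he)
    (fun t τ => by rw [one_mul]; exact Fc_act_AB hRpos T he (hcut t) τ)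
    (fun t τ => by rw [neg_one_mul]; exact Fc_act_AC hRpos T he (hcut t) τ)
    (fun k hk => noDep_cell hL hm hR (NoDep_Gb _) (fun D hD => NoDep_Fc_out hRpos _ he hD) hk)
    (fun k hk => noDep_cell hL hm hR (NoDep_Gb _) (fun D hD => NoDep_Fc_out hRpos _ he hD) hk) σ

lemma MA_one [NeZero n] (β : ℝ) (R : ℤ) : MA n β R 1 := by
  intro e he P σ
  exact (abs_le.1 (Gb_abs_le (D := inn (-R, -R) (2 * R)) (continuous_W β (-R, -R) (2 * R))
    (continuous_cur P _ _) (cur_abs_le P _ _) σ)).2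

/-- decay of the expectation of the current faster than the inverse of the radius -/
theorem MA_decay (hn : 3 ≤ n) {β : ℝ} (hβ : 0 ≤ β) {ε : ℝ} (hε : 0 < ε) :
    ∃ (R : ℤ) (M : ℝ), 0 < R ∧ 0 ≤ M ∧ MA n β R M ∧ (2 * R + 1) * M ≤ ε := by
  have : NeZero n := ⟨by omega⟩
  obtain ⟨L, hL, ht⟩ := tt_small hn hβ (ε := 1 / 1024) (by norm_num)
  obtain ⟨m1, hm1⟩ : ∃ m1 : ℤ, 439 * β ≤ m1 := ⟨⌈439 * β⌉, Int.le_ceil _⟩
  let m0 : ℤ := max m1 1
  have hm0 : 0 < m0 := lt_of_lt_of_le one_pos (le_max_right _ _)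
  have key : ∀ k : ℕ, MA n β (2 ^ k * (m0 * L)) (1 / 4 ^ k) := by
    intro k
    induction k with
    | zero => simpa using MA_one (n := n) β (m0 * L)
    | succ k ih =>
      have h1 : (1 : ℤ) ≤ 2 ^ k := one_le_pow₀ (by norm_num)
      have h2 : m0 ≤ 2 ^ k * m0 := by nlinarith only [h1, hm0]
      have e1 : (2 : ℤ) ^ k * (m0 * L) = (2 ^ k * m0) * L := by ring
      rw [e1] at ih
      have h4 : (m1 : ℝ) ≤ ((2 ^ k * m0 : ℤ) : ℝ) := by
        exact_mod_cast (le_max_left m1 1).trans h2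
      have h3 := MA_step hn hβ hL ht.le (m := 2 ^ k * m0) (by positivity)
        (hm1.trans h4) (M := 1 / 4 ^ k) (by positivity) ih
      have e2 : 2 * (2 ^ k * m0 * L) = 2 ^ (k + 1) * (m0 * L) := by ring
      have e3 : (1 : ℝ) / 4 ^ k / 4 = 1 / 4 ^ (k + 1) := by
        rw [div_div, ← pow_succ]
      rwa [e2, e3] at h3
  have hmL : (0 : ℝ) < m0 * L := by exact_mod_cast mul_pos hm0 hL
  obtain ⟨k, hk⟩ := exists_nat_gt ((2 * (m0 * L) + 1) / ε)
  have hk2 : (k : ℝ) < 2 ^ k := by exact_mod_cast Nat.lt_two_pow_self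
  refine ⟨2 ^ k * (m0 * L), 1 / 4 ^ k, by positivity, by positivity, key k, ?_⟩
  push_cast
  have h4 : (4 : ℝ) ^ k = 2 ^ k * 2 ^ k := by
    rw [← mul_pow]; norm_num
  have h2k : (1 : ℝ) ≤ 2 ^ k := one_le_pow₀ (by norm_num)
  rw [div_lt_iff₀ hε] at hk
  rw [h4, mul_one_div, div_le_iff₀ (by positivity)]
  have h5 : 2 * (m0 * L : ℝ) + 1 ≤ ε * 2 ^ k := by nlinarith only [hk, hε, hk2]
  nlinarith only [h2k, h5]

end Vale.Agent.P163.H841
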