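import Vale.Agent.P163.Model

/-!
Definitions for the statement: finite regions with arbitrary boundary spins, Gibbs (DLR) states,
ferromagnets that contain a box of the square lattice.
-/

open MeasureTheory
open scoped RealInnerProductSpace

namespace Vale.Agent.P163.Universal

open Vale.Agent.P163.Model

variable {n : ℕ}

/-- The four nearest neighbours of a site of the square lattice. -/
def nbrs (x : ℤ × ℤ) : Finset (ℤ × ℤ) :=
  {(x.1 + 1, x.2), (x.1 - 1, x.2), (x.1, x.2 + 1), (x.1, x.2 - 1)}

/-- The sup-norm distance in the square lattice. -/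
def supDist (x y : ℤ × ℤ) : ℤ := max |x.1 - y.1| |x.2 - y.2|

/-- The configuration that equals `s` in the finite region `Λ` and `η` outside. -/
def glue (Λ : Finset (ℤ × ℤ)) (s : Λ → Spin n) (η : ℤ × ℤ → Spin n) : ℤ × ℤ → Spin n :=
  fun x => if h : x ∈ Λ then s ⟨x, h⟩ else η x

/-- The sum of `σ x . σ y` over the nearest neighbour bonds with at least one site in `Λ`, each
bond counted once. -/
noncomputable def bondSum (Λ : Finset (ℤ × ℤ)) (σ : ℤ × ℤ → Spin n) : ℝ :=
  ∑ x ∈ Λ, ∑ y ∈ nbrs x, (if y ∈ Λ then 1 / 2 else 1) * ⟪(σ x : E n), (σ y : E n)⟫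

/-- The O(n) model at inverse temperature `β` in the finite region `Λ`, with the arbitrary
boundary condition `η`: the spins outside `Λ` are those of `η`. -/
noncomputable def bcState (n : ℕ) (β : ℝ) (Λ : Finset (ℤ × ℤ)) (η : ℤ × ℤ → Spin n) :
    Measure (Λ → Spin n) :=
  (Measure.pi fun _ => unif n).tilted fun s => β * bondSum Λ (glue Λ s η)

/-- Gibbs states of the O(n) model on the square lattice at inverse temperature `β`: the
probability measures that satisfy the Dobrushin-Lanford-Ruelle equations. -/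
def IsGibbs (n : ℕ) (β : ℝ) (μ : Measure (ℤ × ℤ → Spin n)) : Prop :=
  IsProbabilityMeasure μ ∧ ∀ (Λ : Finset (ℤ × ℤ)) (f : (ℤ × ℤ → Spin n) → ℝ), Continuous f →
    ∫ σ, f σ ∂μ = ∫ σ, (∫ s, f (glue Λ s σ) ∂(bcState n β Λ σ)) ∂μ

/-- `J` is a ferromagnet on the finite set `V` (symmetric nonnegative couplings without
self-coupling, otherwise arbitrary) which contains a copy `ι` of the box of radius `r` about the
origin of the square lattice: the couplings of every site of the open box are exactly the nearest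
neighbour couplings `β`. -/
structure ContainsBox (β : ℝ) (r : ℕ) {V : Type} (J : V → V → ℝ) (ι : ℤ × ℤ → V) : Prop where
  symm : ∀ u v, J u v = J v u
  diag : ∀ v, J v v = 0
  nonneg : ∀ u v, 0 ≤ J u v
  inj : Set.InjOn ι {x | supDist x 0 ≤ r}
  near : ∀ x, supDist x 0 < r → ∀ y ∈ nbrs x, J (ι x) (ι y) = β
  far : ∀ x, supDist x 0 < r → ∀ v, (∀ y ∈ nbrs x, v ≠ ι y) → J (ι x) v = 0

end Vale.Agent.P163.Universal
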