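import Vale.Agent.P163.H841.Spec

/-!
Ferromagnetic surroundings, and uniformity in the temperature.
-/

open MeasureTheory Filter Topology
open scoped RealInnerProductSpace

set_option linter.unusedSectionVars false

namespace Vale.Agent.P163.H841

open Vale.Agent.P163 Vale.Agent.P163.MW Vale.Agent.P163.Universal

variable {n : ℕ}

/-! ### Continuity in the temperature -/

lemma W_diff (β β' : ℝ) (p : Z2) {l : ℤ} (hl : 0 ≤ l) (σ : Z2 → Spin n) :
    |W β' p l σ - W β p l σ| ≤ 2 * (l : ℝ) ^ 2 * |β' - β| := by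
  unfold W PSb
  rw [← PS_sub]
  refine PS_abs_le_of_le hl fun u v _ _ _ => ?_
  have e : β' * ⟪(σ u : E n), (σ v : E n)⟫ - β * ⟪(σ u : E n), (σ v : E n)⟫ =
      (β' - β) * ⟪(σ u : E n), (σ v : E n)⟫ := by ring
  rw [e, abs_mul]
  have h := abs_real_inner_le_norm (σ u : E n) (σ v : E n)
  rw [mw_spin_norm, mw_spin_norm, mul_one] at h
  calc |β' - β| * |⟪(σ u : E n), (σ v : E n)⟫| ≤ |β' - β| * 1 :=
        mul_le_mul_of_nonneg_left h (abs_nonneg _)
    _ = |β' - β| := mul_one _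

lemma Gb_perturb [NeZero n] {D : Finset Z2} {H H' f : (Z2 → Spin n) → ℝ} (hH : Continuous H)
    (hH' : Continuous H') (hf : Continuous f) (hf1 : ∀ σ, |f σ| ≤ 1) {η : ℝ}
    (hη : ∀ σ, |H' σ - H σ| ≤ η) (σ : Z2 → Spin n) :
    Gb D H' f σ ≤ Gb D H f σ + 2 * (Real.exp (2 * η) - 1) := by
  have hη0 : 0 ≤ η := (abs_nonneg _).trans (hη σ)
  -- the shifted observable
  have hg : Continuous fun σ => f σ + 1 := hf.add continuous_const
  have hg0 : ∀ τ, 0 ≤ f τ + 1 := fun τ => by have := (abs_le.1 (hf1 τ)).1; linarith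
  have hden := Gb_den_pos (D := D) hH σ
  have hden' := Gb_den_pos (D := D) hH' σ
  have h1 : Av D (fun σ => (f σ + 1) * Real.exp (H' σ)) σ ≤
      Real.exp η * Av D (fun σ => (f σ + 1) * Real.exp (H σ)) σ := by
    rw [← Av_const_mul]
    have hc : Continuous fun σ => Real.exp η * ((f σ + 1) * Real.exp (H σ)) :=
      continuous_const.mul (cfe hg hH)
    refine Av_mono D (cfe hg hH') hc (fun τ => ?_) σ
    have h2 : Real.exp (H' τ) ≤ Real.exp η * Real.exp (H τ) := by
      rw [← Real.exp_add, Real.exp_le_exp]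
      have := (abs_le.1 (hη τ)).2
      linarith
    calc (f τ + 1) * Real.exp (H' τ) ≤ (f τ + 1) * (Real.exp η * Real.exp (H τ)) :=
          mul_le_mul_of_nonneg_left h2 (hg0 τ)
      _ = _ := by ring
  have h3 : Av D (fun σ => Real.exp (H σ)) σ ≤
      Real.exp η * Av D (fun σ => Real.exp (H' σ)) σ := by
    rw [← Av_const_mul]
    have hc : Continuous fun σ => Real.exp η * Real.exp (H' σ) :=
      continuous_const.mul (cexp hH')
    refine Av_mono D (cexp hH) hc (fun τ => ?_) σ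
    rw [← Real.exp_add, Real.exp_le_exp]
    have := (abs_le.1 (hη τ)).1
    linarith
  have hN0 : 0 ≤ Av D (fun σ => (f σ + 1) * Real.exp (H σ)) σ := by
    have h4 := Av_mono (n := n) D (f := fun _ => (0 : ℝ))
      (g := fun σ => (f σ + 1) * Real.exp (H σ)) continuous_const (cfe hg hH)
      (fun τ => mul_nonneg (hg0 τ) (Real.exp_pos _).le) σ
    have h5 : Av D (fun _ : Z2 → Spin n => (0 : ℝ)) σ = 0 := by unfold Av; simp
    rwa [h5] at h4
  have h6 : Gb D H' (fun σ => f σ + 1) σ ≤ Real.exp (2 * η) * Gb D H (fun σ => f σ + 1) σ := by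
    unfold Gb
    rw [div_le_iff₀ hden']
    have e2 : Real.exp (2 * η) = Real.exp η * Real.exp η := by
      rw [← Real.exp_add]; congr 1; ring
    have h7 : Av D (fun σ => (f σ + 1) * Real.exp (H σ)) σ ≤
        (Av D (fun σ => (f σ + 1) * Real.exp (H σ)) σ / Av D (fun σ => Real.exp (H σ)) σ) *
          (Real.exp η * Av D (fun σ => Real.exp (H' σ)) σ) := by
      rw [div_mul_eq_mul_div, le_div_iff₀ hden]
      exact mul_le_mul_of_nonneg_left h3 hN0
    calc _ ≤ _ := h1
      _ ≤ Real.exp η * ((Av D (fun σ => (f σ + 1) * Real.exp (H σ)) σ /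
            Av D (fun σ => Real.exp (H σ)) σ) *
            (Real.exp η * Av D (fun σ => Real.exp (H' σ)) σ)) :=
          mul_le_mul_of_nonneg_left h7 (Real.exp_pos _).le
      _ = _ := by rw [e2]; ring
  rw [Gb_add hH' hf continuous_const, Gb_add hH hf continuous_const, Gb_const hH',
    Gb_const hH] at h6
  have h8 := (abs_le.1 (Gb_abs_le (D := D) hH hf hf1 σ)).2
  have h9 : 1 ≤ Real.exp (2 * η) := Real.one_le_exp (by linarith)
  nlinarith only [h6, h8, h9]

lemma MB_perturb [NeZero n] {β β' : ℝ} {R : ℤ} (hR : 0 < R) {M η : ℝ} (hMB : MB n β R M)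
    (hη : 8 * (R : ℝ) ^ 2 * |β' - β| ≤ η) :
    MB n β' R (M + 2 * (Real.exp (2 * η) - 1)) := by
  intro σ w hw
  have hl : (0 : ℤ) ≤ 2 * R := by omega
  have h := Gb_perturb (D := inn (-R, -R) (2 * R)) (continuous_W (n := n) β (-R, -R) (2 * R))
    (continuous_W (n := n) β' (-R, -R) (2 * R)) (continuous_ip w (0, 0))
    (fun τ => by
      have := abs_real_inner_le_norm w (τ (0, 0) : E n)
      rw [hw, mw_spin_norm] at this
      linarith) (η := η)
    (fun τ => by
      refine (W_diff β β' (-R, -R) hl τ).trans ?_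
      push_cast
      linarith) σ
  refine h.trans ?_
  have := hMB σ w hw
  linarith

/-- the finite-size criterion holds uniformly on bounded intervals of `β` -/
theorem MB_unif (hn : 3 ≤ n) {β0 : ℝ} (hβ0 : 0 < β0) : ∃ R0 : ℤ, 0 < R0 ∧
    ∀ β : ℝ, 0 ≤ β → β ≤ β0 → ∃ (R : ℤ) (M : ℝ), 0 < R ∧ R ≤ R0 ∧ 0 ≤ M ∧ MB n β R M ∧
      32 * β * R * M ≤ n * (1 / 2 : ℝ) := by
  have : NeZero n := ⟨by omega⟩
  have hnpos : (0 : ℝ) < n := by exact_mod_cast (by omega : 0 < n)
  -- one temperature and its neighbourhood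
  have hloc : ∀ β : ℝ, 0 ≤ β → ∃ (R : ℤ) (δ : ℝ), 0 < R ∧ 0 < δ ∧
      ∀ β' : ℝ, 0 ≤ β' → β' ≤ β0 → |β' - β| < δ →
        ∃ M : ℝ, 0 ≤ M ∧ MB n β' R M ∧ 32 * β' * R * M ≤ n * (1 / 2 : ℝ) := by
    intro β hβ
    obtain ⟨R, M, hR, hM, hMB, hRM⟩ := Vale.Agent.P163.MB_decay hn hβ
      (ε := n / (64 * β0)) (by positivity)
    have hRr : (0 : ℝ) < R := by exact_mod_cast hR
    set η : ℝ := min (1 / 2) (n / (1024 * β0 * R)) with hηdef
    have hη0 : 0 < η := lt_min (by norm_num) (by positivity)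
    have hη1 : η ≤ 1 / 2 := min_le_left _ _
    have hη2 : η ≤ n / (1024 * β0 * R) := min_le_right _ _
    refine ⟨R, η / (8 * (R : ℝ) ^ 2), hR, by positivity, fun β' h1 h2 h3 => ?_⟩
    have h4 : 8 * (R : ℝ) ^ 2 * |β' - β| ≤ η := by
      rw [lt_div_iff₀ (by positivity)] at h3
      linarith
    have h5 := MB_perturb hR hMB h4
    have h6 : Real.exp (2 * η) - 1 ≤ 2 * (2 * η) := exp_sub_one_le (by linarith) (by linarith)
    have h7 : 1 ≤ Real.exp (2 * η) := Real.one_le_exp (by linarith)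
    refine ⟨M + 2 * (Real.exp (2 * η) - 1), by linarith, h5, ?_⟩
    have h8 : 32 * β' * R * M ≤ n * (1 / 4 : ℝ) := by
      have h9 : (2 * (R : ℝ)) * M ≤ n / (64 * β0) := by
        refine le_trans ?_ hRM
        nlinarith only [hM]
      rw [le_div_iff₀ (by positivity)] at h9
      have h10 : 32 * β' * R * M ≤ 32 * β0 * R * M := by
        have : 0 ≤ 32 * (R : ℝ) * M := by positivity
        nlinarith only [this, h2]
      linarith
    have h11 : 32 * β' * R * (2 * (Real.exp (2 * η) - 1)) ≤ n * (1 / 4 : ℝ) := by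
      rw [le_div_iff₀ (by positivity)] at hη2
      calc 32 * β' * R * (2 * (Real.exp (2 * η) - 1)) ≤ 32 * β0 * R * (2 * (2 * (2 * η))) := by
            gcongr
        _ ≤ n * (1 / 4 : ℝ) := by linarith
    have e : 32 * β' * R * (M + 2 * (Real.exp (2 * η) - 1)) =
        32 * β' * R * M + 32 * β' * R * (2 * (Real.exp (2 * η) - 1)) := by ring
    rw [e]
    linarith
  choose! Rf δf hRf using hloc
  obtain ⟨t, ht, hcov⟩ := (isCompact_Icc (a := (0 : ℝ)) (b := β0)).elim_nhds_subcover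
    (fun β => Metric.ball β (δf β)) (fun β hβ => Metric.ball_mem_nhds β (hRf β hβ.1).2.1)
  refine ⟨∑ β ∈ t, Rf β + 1, ?_, ?_⟩
  · have : 0 ≤ ∑ β ∈ t, Rf β := Finset.sum_nonneg fun β hβ => (hRf β (ht β hβ).1).1.le
    omega
  · intro β h1 h2
    have h3 := hcov (show β ∈ Set.Icc 0 β0 from ⟨h1, h2⟩)
    rw [Set.mem_iUnion₂] at h3
    obtain ⟨β1, hβ1, h4⟩ := h3
    rw [Metric.mem_ball, Real.dist_eq] at h4
    obtain ⟨M, hM, hMB, hle⟩ := (hRf β1 (ht β1 hβ1).1).2.2 β h1 h2 h4
    refine ⟨Rf β1, M, (hRf β1 (ht β1 hβ1).1).1, ?_, hM, hMB, hle⟩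
    have := Finset.single_le_sum (f := Rf) (fun β hβ => (hRf β (ht β hβ).1).1.le) hβ1
    omega

/-! ### Ferromagnetic surroundings -/

section ferro

variable {V : Type} [Fintype V]

open Classical in
/-- position of the sites of `V` in the square lattice: the box keeps its place, the other sites
are put far away -/
noncomputable def pos (r : ℕ) (ι : Z2 → V) (v : V) : Z2 :=
  if h : ∃ y : Z2, supDist y 0 ≤ r ∧ ι y = v then h.choose
  else ((r : ℤ) + 3 + 2 * ((Fintype.equivFin V v : ℕ) : ℤ), (r : ℤ) + 3)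

lemma pos_ι {r : ℕ} {ι : Z2 → V} (hinj : Set.InjOn ι {x | supDist x 0 ≤ r}) {y : Z2}
    (hy : supDist y 0 ≤ r) : pos r ι (ι y) = y := by
  unfold pos
  have h : ∃ z : Z2, supDist z 0 ≤ r ∧ ι z = ι y := ⟨y, hy, rfl⟩
  rw [dif_pos h]
  exact hinj h.choose_spec.1 hy h.choose_spec.2

lemma pos_cases (r : ℕ) (ι : Z2 → V) (v : V) :
    (supDist (pos r ι v) 0 ≤ r ∧ ι (pos r ι v) = v) ∨
      ((¬ ∃ y : Z2, supDist y 0 ≤ r ∧ ι y = v) ∧
        pos r ι v = ((r : ℤ) + 3 + 2 * ((Fintype.equivFin V v : ℕ) : ℤ), (r : ℤ) + 3)) := by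
  by_cases h : ∃ y : Z2, supDist y 0 ≤ r ∧ ι y = v
  · left
    unfold pos
    rw [dif_pos h]
    exact h.choose_spec
  · right
    refine ⟨h, ?_⟩
    unfold pos
    rw [dif_neg h]

lemma supDist_zero_le {y : Z2} {r : ℤ} : supDist y 0 ≤ r ↔
    (-r ≤ y.1 ∧ y.1 ≤ r) ∧ (-r ≤ y.2 ∧ y.2 ≤ r) := by
  unfold supDist
  simp only [Prod.fst_zero, Prod.snd_zero, sub_zero]
  rw [max_le_iff, abs_le, abs_le]

lemma supDist_zero_lt {y : Z2} {r : ℤ} : supDist y 0 < r ↔
    (-r < y.1 ∧ y.1 < r) ∧ (-r < y.2 ∧ y.2 < r) := by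
  unfold supDist
  simp only [Prod.fst_zero, Prod.snd_zero, sub_zero]
  rw [max_lt_iff, abs_lt, abs_lt]

lemma pos_inj (r : ℕ) (ι : Z2 → V) : Function.Injective (pos r ι) := by
  intro u v h
  rcases pos_cases r ι u with ⟨h1, h2⟩ | ⟨h1, h2⟩ <;>
    rcases pos_cases r ι v with ⟨h3, h4⟩ | ⟨h3, h4⟩
  · rw [← h2, ← h4, h]
  · rw [h, h4, supDist_zero_le] at h1
    simp only at h1
    omega
  · rw [← h, h2, supDist_zero_le] at h3
    simp only at h3
    omega
  · rw [h2, h4] at h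
    have h5 := congrArg Prod.fst h
    simp only at h5
    have h6 : (Fintype.equivFin V u : ℕ) = (Fintype.equivFin V v : ℕ) := by omega
    exact (Fintype.equivFin V).injective (Fin.ext h6)

/-- decay of the correlations in a ferromagnet that contains a box -/
theorem ferro_bound [NeZero n] (hn : 2 ≤ n) {β : ℝ} (hβ : 0 ≤ β) {R : ℤ}
    (hR : 0 < R) {M : ℝ} (hM : 0 ≤ M) (hMB : MB n β R M) {q : ℝ} (hq0 : 0 ≤ q)
    (hq : 32 * β * R * M ≤ n * q) {r : ℕ} {J : V → V → ℝ} {ι : Z2 → V}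
    (h : ContainsBox β r J ι) {v : V} (hv : ∀ x, supDist x 0 < r → v ≠ ι x) (k : ℕ)
    (hk : k * (R + 1) ≤ (r : ℤ)) :
    ∫ σ, ⟪(σ (ι 0) : E n), (σ v : E n)⟫ ∂(Model.gibbs n J) ≤ q ^ k := by
  classical
  have hk0 : (0 : ℤ) ≤ k * (R + 1) := mul_nonneg (Int.natCast_nonneg k) (by omega)
  have h00 : supDist (0 : Z2) 0 ≤ (r : ℤ) := by
    rw [supDist_zero_le]; simp
  have hJ : ∀ u w, (∀ q ∈ nb4 (pos r ι u), ∃ w, pos r ι w = q) →
      J u w = if pos r ι w ∈ nb4 (pos r ι u) then β else 0 := by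
    intro u w hu
    rcases pos_cases r ι u with ⟨h1, h2⟩ | ⟨h1, h2⟩
    · -- a site of the box
      obtain ⟨y, hy⟩ : ∃ y, y = pos r ι u := ⟨_, rfl⟩
      rw [← hy] at h1 h2 hu ⊢
      by_cases hlt : supDist y 0 < r
      · by_cases hw : pos r ι w ∈ nb4 y
        · rw [if_pos hw]
          rcases pos_cases r ι w with ⟨h3, h4⟩ | ⟨h3, h4⟩
          · rw [← h2, ← h4]
            exact h.near y hlt _ hw
          · exfalso
            rw [h4] at hw
            rw [supDist_zero_lt] at hlt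
            simp only [nb4, Finset.mem_insert, Finset.mem_singleton, Prod.ext_iff] at hw
            omega
        · rw [if_neg hw, ← h2]
          refine h.far y hlt w fun q hq hwq => hw ?_
          have hq' : supDist q 0 ≤ r := by
            rw [supDist_zero_lt] at hlt
            rw [supDist_zero_le]
            simp only [nbrs, Finset.mem_insert, Finset.mem_singleton, Prod.ext_iff] at hq
            omega
          rw [hwq, pos_ι h.inj hq']
          exact hq
      · exfalso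
        have hout : ∀ q : Z2, q ∈ nb4 y → supDist q 0 = (r : ℤ) + 1 → False := by
          intro q hq hqr
          obtain ⟨w', hw'⟩ := hu q hq
          rcases pos_cases r ι w' with ⟨h3, h4⟩ | ⟨h3, h4⟩
          · rw [hw', hqr] at h3
            omega
          · rw [hw'] at h4
            have h5 : supDist q 0 ≤ (r : ℤ) + 1 := hqr.le
            rw [supDist_zero_le, h4] at h5
            simp only at h5
            omega
        have heq : ∀ a b : ℤ, supDist ((a, b) : Z2) 0 = max |a| |b| := by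
          intro a b; unfold supDist; simp
        rw [supDist_zero_lt] at hlt
        rw [supDist_zero_le] at h1
        have hcase : y.1 = r ∨ y.1 = -r ∨ y.2 = r ∨ y.2 = -r := by omega
        rcases hcase with hc | hc | hc | hc
        · refine hout (y.1 + 1, y.2) (by simp [nb4]) ?_
          rw [heq]
          have a1 : |y.1 + 1| = (r : ℤ) + 1 := by rw [hc, abs_of_nonneg (by omega)]
          have a2 : |y.2| ≤ (r : ℤ) := by rw [abs_le]; omega
          rw [a1]; omega
        · refine hout (y.1 - 1, y.2) (by simp [nb4]) ?_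
          rw [heq]
          have a1 : |y.1 - 1| = (r : ℤ) + 1 := by
            rw [hc, abs_of_nonpos (by omega)]; ring
          have a2 : |y.2| ≤ (r : ℤ) := by rw [abs_le]; omega
          rw [a1]; omega
        · refine hout (y.1, y.2 + 1) (by simp [nb4]) ?_
          rw [heq]
          have a1 : |y.2 + 1| = (r : ℤ) + 1 := by rw [hc, abs_of_nonneg (by omega)]
          have a2 : |y.1| ≤ (r : ℤ) := by rw [abs_le]; omega
          rw [a1]; omega
        · refine hout (y.1, y.2 - 1) (by simp [nb4]) ?_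
          rw [heq]
          have a1 : |y.2 - 1| = (r : ℤ) + 1 := by
            rw [hc, abs_of_nonpos (by omega)]; ring
          have a2 : |y.1| ≤ (r : ℤ) := by rw [abs_le]; omega
          rw [a1]; omega
    · -- a site outside the box has a neighbour which is not occupied
      exfalso
      obtain ⟨w', hw'⟩ := hu ((r : ℤ) + 3 + 2 * ((Fintype.equivFin V u : ℕ) : ℤ), (r : ℤ) + 3 + 1)
        (by rw [h2]; simp [nb4])
      rcases pos_cases r ι w' with ⟨h3, h4⟩ | ⟨h3, h4⟩
      · rw [hw', supDist_zero_le] at h3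
        simp only at h3
        omega
      · rw [hw'] at h4
        have h5 := congrArg Prod.snd h4
        simp only at h5
        omega
  have hx : pos r ι (ι 0) = 0 := pos_ι h.inj h00
  have hcov : ∀ p, sd p (pos r ι (ι 0)) ≤ k * (R + 1) → ∃ w, pos r ι w = p := by
    intro p hp
    rw [hx] at hp
    have hp' : supDist p 0 ≤ (r : ℤ) := le_trans hp hk
    exact ⟨ι p, pos_ι h.inj hp'⟩
  have hd : k * (R + 1) ≤ sd (pos r ι v) (pos r ι (ι 0)) := by
    rw [hx]
    refine hk.trans ?_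
    change (r : ℤ) ≤ supDist (pos r ι v) 0
    rcases pos_cases r ι v with ⟨h3, h4⟩ | ⟨h3, h4⟩
    · by_contra hlt
      push Not at hlt
      exact hv _ hlt h4.symm
    · rw [h4]
      unfold supDist
      simp only [Prod.fst_zero, Prod.snd_zero, sub_zero]
      refine le_trans ?_ (le_max_right _ _)
      rw [abs_of_nonneg (by omega)]
      omega
  have hit := Gt_iter (n := n) hn hβ h.symm h.diag h.nonneg (pos_inj r ι) hJ hR hM hMB hq0 hq k
    (ι 0) v hcov hd
  have hg : Continuous fun σ : V → E n => ⟪σ (ι 0), σ v⟫ := by fun_prop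
  rw [model_gibbs, integral_gibbs J hg]
  have hJr : Jr J (fun _ => 1) = J := by
    funext u v; simp [Jr]
  unfold Gt Zt at hit
  rw [hJr] at hit
  rw [div_le_iff₀ (Zp_pos J)]
  have e : (fun σ : V → E n => ⟪σ (ι 0), σ v⟫ * wt (n := n) J σ) =
      fun σ => ⟪σ v, σ (ι 0)⟫ * wt J σ := by
    funext σ; rw [real_inner_comm]
  rw [e]
  simpa only [mul_one, one_mul] using hit

end ferro

/-! ### From powers to exponentials -/

lemma half_pow_le {R : ℤ} (hR : 0 < R) {k : ℕ} {d : ℝ} (hd : d ≤ ((k : ℝ) + 1) * (R + 1)) :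
    (1 / 2 : ℝ) ^ k ≤ 2 * Real.exp (-(Real.log 2 / (R + 1)) * d) := by
  have hRr : (0 : ℝ) < R := by exact_mod_cast hR
  have hlog : 0 < Real.log 2 := Real.log_pos (by norm_num)
  have e1 : (1 / 2 : ℝ) ^ k = Real.exp (-(Real.log 2 * k)) := by
    rw [Real.exp_neg, mul_comm, Real.exp_nat_mul, Real.exp_log (by norm_num)]
    simp
  have e2 : 2 * Real.exp (-(Real.log 2 / (R + 1)) * d) =
      Real.exp (Real.log 2 + -(Real.log 2 / (R + 1)) * d) := by
    rw [Real.exp_add, Real.exp_log (by norm_num)]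
  rw [e1, e2, Real.exp_le_exp]
  have h1 : Real.log 2 / (R + 1) * d ≤ Real.log 2 * (k + 1) := by
    rw [div_mul_eq_mul_div, div_le_iff₀ (by positivity)]
    calc Real.log 2 * d ≤ Real.log 2 * (((k : ℝ) + 1) * (R + 1)) :=
          mul_le_mul_of_nonneg_left hd hlog.le
      _ = _ := by ring
  linarith

/-- Exponential decay in a ferromagnet that contains a box. -/
theorem ferro_decay (hn : 3 ≤ n) {β : ℝ} (hβ : 0 ≤ β) {R R0 : ℤ} (hR : 0 < R) (hRR : R ≤ R0)
    {M : ℝ} (hM : 0 ≤ M) (hMB : MB n β R M) (hq : 32 * β * R * M ≤ n * (1 / 2 : ℝ))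
    {V : Type} [Fintype V] {r : ℕ} {J : V → V → ℝ} {ι : Z2 → V} (h : ContainsBox β r J ι)
    {v : V} (hv : ∀ x, supDist x 0 < r → v ≠ ι x) :
    ∫ σ, ⟪(σ (ι 0) : E n), (σ v : E n)⟫ ∂(Model.gibbs n J) ≤
      2 * Real.exp (-(Real.log 2 / (2 * (R0 + 1))) * r) := by
  have : NeZero n := ⟨by omega⟩
  set k : ℕ := ((r : ℤ) / (R + 1)).toNat with hkdef
  have hR1 : 0 < R + 1 := by omega
  have hkz : (k : ℤ) = (r : ℤ) / (R + 1) :=
    Int.toNat_of_nonneg (Int.ediv_nonneg (Int.natCast_nonneg r) hR1.le)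
  have hk1 : (k : ℤ) * (R + 1) ≤ (r : ℤ) := by
    rw [hkz]; exact Int.ediv_mul_le _ hR1.ne'
  have hk2 : (r : ℤ) < ((k : ℤ) + 1) * (R + 1) := by
    rw [hkz]; exact Int.lt_ediv_add_one_mul_self _ hR1
  refine (ferro_bound (by omega) hβ hR hM hMB (by norm_num) hq h hv k hk1).trans ?_
  have hk3 : (r : ℝ) ≤ ((k : ℝ) + 1) * (R + 1) := by exact_mod_cast hk2.le
  refine (half_pow_le hR hk3).trans ?_
  have hRr : (0 : ℝ) < R := by exact_mod_cast hR
  have hRR' : (R : ℝ) ≤ R0 := by exact_mod_cast hRR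
  have hlog : 0 < Real.log 2 := Real.log_pos (by norm_num)
  refine mul_le_mul_of_nonneg_left ?_ (by norm_num)
  rw [Real.exp_le_exp]
  have h1 : Real.log 2 / (2 * (R0 + 1)) ≤ Real.log 2 / (R + 1) :=
    div_le_div_of_nonneg_left hlog.le (by linarith) (by linarith)
  have h2 := mul_le_mul_of_nonneg_right h1 (Nat.cast_nonneg (α := ℝ) r)
  linarith

/-- Exponential decay in the infinite-volume states, with explicit constants. -/
theorem state_decay (hn : 3 ≤ n) {β : ℝ} (hβ : 0 < β) {R R0 : ℤ} (hR : 0 < R) (hRR : R ≤ R0)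
    {M : ℝ} (hM : 0 ≤ M) (hMB : MB n β R M) (hq : 32 * β * R * M ≤ n * (1 / 2 : ℝ))
    {μ : Measure (ℤ × ℤ → Model.Spin n)} (hμ : Model.IsInfiniteVolumeState n β μ) (x y : ℤ × ℤ) :
    ∫ σ, ⟪(σ x : Model.E n), (σ y : Model.E n)⟫ ∂μ ≤
      2 * Real.exp (-(Real.log 2 / (2 * (R0 + 1))) * Model.dist2 x y) := by
  have : NeZero n := ⟨by omega⟩
  obtain ⟨p, a, b, hex, hlim⟩ := model_state hμ
  set k : ℕ := (sd x y / (R + 1)).toNat with hk
  have hsd0 : 0 ≤ sd x y := le_max_of_le_left (abs_nonneg _)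
  have hR1 : 0 < R + 1 := by omega
  have hkz : (k : ℤ) = sd x y / (R + 1) :=
    Int.toNat_of_nonneg (Int.ediv_nonneg hsd0 hR1.le)
  have hk1 : (k : ℤ) * (R + 1) ≤ sd x y := by
    rw [hkz]; exact Int.ediv_mul_le _ hR1.ne'
  have hk2 : sd x y < ((k : ℤ) + 1) * (R + 1) := by
    rw [hkz]; exact Int.lt_ediv_add_one_mul_self _ hR1
  -- the bound in infinite volume
  have hinf : ∫ σ, ⟪(σ x : E n), (σ y : E n)⟫ ∂μ ≤ (1 / 2 : ℝ) ^ k := by
    have hxA : x ∈ ({x, y} : Finset Z2) := by simp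
    have hyA : y ∈ ({x, y} : Finset Z2) := by simp
    have hf : Continuous fun σ : ({x, y} : Finset Z2) → Spin n =>
        ⟪(σ ⟨x, hxA⟩ : E n), (σ ⟨y, hyA⟩ : E n)⟫ := by fun_prop
    have hl := hlim {x, y} _ hf
    refine le_of_tendsto hl ?_
    have e1 := hex (y.1 - (k * (R + 1) + 1), y.2 - (k * (R + 1) + 1))
    have e2 := hex (y.1 + (k * (R + 1) + 1), y.2 + (k * (R + 1) + 1))
    filter_upwards [hex x, hex y, e1, e2] with j hjx hjy h1 h2
    have hA : ({x, y} : Finset Z2) ⊆ Finset.Icc (a j) (b j) := by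
      intro r hr
      rw [Finset.mem_insert, Finset.mem_singleton] at hr
      rcases hr with rfl | rfl <;> assumption
    rw [dif_pos hA]
    refine box_bound (by omega) hβ.le hR hM hMB (by norm_num) hq k (p j) (a j) (b j) x y hjx hjy
      ?_ hk1
    intro r hr
    rw [sd_le] at hr
    rw [Finset.mem_Icc, Prod.le_def, Prod.le_def] at h1 h2 ⊢
    simp only at h1 h2
    omega
  refine hinf.trans ?_
  have hk3 : (sd x y : ℝ) ≤ ((k : ℝ) + 1) * (R + 1) := by exact_mod_cast hk2.le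
  refine (half_pow_le hR hk3).trans ?_
  have hRr : (0 : ℝ) < R := by exact_mod_cast hR
  have hRR' : (R : ℝ) ≤ R0 := by exact_mod_cast hRR
  have hlog : 0 < Real.log 2 := Real.log_pos (by norm_num)
  have hd : Model.dist2 x y ≤ 2 * (sd x y : ℝ) := dist2_le x y
  refine mul_le_mul_of_nonneg_left ?_ (by norm_num)
  rw [Real.exp_le_exp]
  have hRR0 : (0 : ℝ) < (R0 : ℝ) + 1 := by linarith
  have h3 : Real.log 2 / (2 * (R0 + 1)) * Model.dist2 x y ≤ Real.log 2 / (R + 1) * sd x y := by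
    calc Real.log 2 / (2 * (R0 + 1)) * Model.dist2 x y ≤
          Real.log 2 / (2 * (R0 + 1)) * (2 * (sd x y : ℝ)) :=
          mul_le_mul_of_nonneg_left hd (by positivity)
      _ = Real.log 2 / (R0 + 1) * sd x y := by field_simp
      _ ≤ Real.log 2 / (R + 1) * sd x y := by
          refine mul_le_mul_of_nonneg_right ?_ (by exact_mod_cast hsd0)
          exact div_le_div_of_nonneg_left hlog.le (by linarith) (by linarith)
  linarith

end Vale.Agent.P163.H841
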