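import Vale.Agent.P163.H841.Adj

/-!
Decoupling: the expectation of an odd observable of a box is small compared with its supremum as
soon as the expectation of the current is small at the scale of the surrounding annulus.
-/

open MeasureTheory Filter Topology
open scoped RealInnerProductSpace

set_option linter.unusedSectionVars false

namespace Vale.Agent.P163.H841

open Vale.Agent.P163 Vale.Agent.P163.MW

variable {n : ℕ}

/-! ### Charts -/

section chart

variable [NeZero n] {V V' : Type} [DecidableEq V] [Countable V] [DecidableEq V'] [Countable V']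

lemma Av_chart {c : V → V'} (hc : Function.Injective c) {D : Finset V} {D' : Finset V'}
    (hD : ∀ v, v ∈ D ↔ c v ∈ D') {F : (V → Spin n) → ℝ} (hF : Continuous F)
    (σ : V' → Spin n) :
    Av D' (fun σ => F fun v => σ (c v)) σ = Av D F (fun v => σ (c v)) := by
  unfold Av
  rw [← integral_chart (n := n) hc (F := fun ξ => F (D.piecewise ξ fun v => σ (c v)))
    (hF.comp (continuous_pw_left D _))]
  congr 1
  funext ξ
  beta_reduce
  congr 1
  funext v
  by_cases hv : v ∈ D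
  · rw [Finset.piecewise_eq_of_mem _ _ _ hv, Finset.piecewise_eq_of_mem _ _ _ ((hD v).1 hv)]
  · rw [Finset.piecewise_eq_of_notMem _ _ _ hv,
      Finset.piecewise_eq_of_notMem _ _ _ (fun h => hv ((hD v).2 h))]

lemma Gb_chart {c : V → V'} (hc : Function.Injective c) {D : Finset V} {D' : Finset V'}
    (hD : ∀ v, v ∈ D ↔ c v ∈ D') {H F : (V → Spin n) → ℝ} (hH : Continuous H)
    (hF : Continuous F) (σ : V' → Spin n) :
    Gb D' (fun σ => H fun v => σ (c v)) (fun σ => F fun v => σ (c v)) σ =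
      Gb D H F (fun v => σ (c v)) := by
  unfold Gb
  rw [← Av_chart hc hD (cfe hF hH) σ, ← Av_chart hc hD (cexp hH) σ]

end chart

/-- translation of the lattice -/
def tr (z x : Z2) : Z2 := (x.1 + z.1, x.2 + z.2)

lemma tr_inj (z : Z2) : Function.Injective (tr z) := by
  intro x y h
  unfold tr at h
  have h1 := congrArg Prod.fst h
  have h2 := congrArg Prod.snd h
  simp only at h1 h2
  exact Prod.ext (by omega) (by omega)

lemma PS_shift (z p : Z2) (l : ℤ) (b : Z2 → Z2 → ℝ) :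
    PS (tr z p) l b = PS p l fun u v => b (tr z u) (tr z v) := by
  unfold PS
  refine (Finset.sum_bij (fun q _ => tr z q) ?_ ?_ ?_ ?_).symm
  · intro q hq
    rw [mem_plaq] at hq ⊢
    unfold tr
    simp only
    omega
  · intro q _ q' _ h
    exact tr_inj z h
  · intro q hq
    refine ⟨(q.1 - z.1, q.2 - z.2), ?_, ?_⟩
    · rw [mem_plaq] at hq ⊢
      unfold tr at hq
      simp only at hq ⊢
      omega
    · unfold tr
      simp only
      exact Prod.ext (by simp) (by simp)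
  · intro q _
    unfold pq tr
    simp only
    have e1 : q.1 + 1 + z.1 = q.1 + z.1 + 1 := by ring
    have e2 : q.2 + 1 + z.2 = q.2 + z.2 + 1 := by ring
    rw [e1, e2]

lemma W_shift (β : ℝ) (z p : Z2) (l : ℤ) (σ : Z2 → Spin n) :
    W β (tr z p) l σ = W β p l (fun x => σ (tr z x)) := by
  unfold W PSb
  rw [PS_shift]

/-- the expectation of a shifted observable in the shifted box -/
lemma Gc_shift [NeZero n] (β : ℝ) (z p : Z2) (l : ℤ) {F : (Z2 → Spin n) → ℝ} (hF : Continuous F)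
    (σ : Z2 → Spin n) :
    Gc β (tr z p) l (fun σ => F fun x => σ (tr z x)) σ = Gc β p l F (fun x => σ (tr z x)) := by
  have h := Gb_chart (n := n) (tr_inj z) (D := inn p l) (D' := inn (tr z p) l)
    (fun v => by rw [mem_inn, mem_inn]; unfold tr; simp only; omega)
    (continuous_W (n := n) β p l) hF σ
  have e : (fun σ : Z2 → Spin n => W β p l fun v => σ (tr z v)) = W β (tr z p) l := by
    funext τ; rw [W_shift]
  rw [e] at h
  exact h

/-- the current bound in a box with arbitrary center -/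
lemma cur_le_of_MA [NeZero n] {β : ℝ} {L : ℤ} {a : ℝ} (hMA : MA n β L a) (P : Pl n) {u v : Z2}
    (huv : Nb u v) (σ : Z2 → Spin n) :
    |Gc β (u.1 - L, u.2 - L) (2 * L) (cur P u v) σ| ≤ a := by
  have key : ∀ e : Z2, (e = (1, 0) ∨ e = (0, 1)) → v = tr u e →
      |Gc β (u.1 - L, u.2 - L) (2 * L) (cur P u v) σ| ≤ a := by
    intro e he hv
    have h := Gc_shift (n := n) β u (-L, -L) (2 * L) (continuous_cur P (0, 0) e) σ
    have e1 : tr u (-L, -L) = (u.1 - L, u.2 - L) := by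
      unfold tr; exact Prod.ext (by simp only; ring) (by simp only; ring)
    have e2 : (fun σ : Z2 → Spin n => cur P (0, 0) e fun x => σ (tr u x)) = cur P u v := by
      funext τ
      unfold cur
      beta_reduce
      have : tr u (0, 0) = u := by unfold tr; exact Prod.ext (by simp) (by simp)
      rw [this, hv]
    rw [e1, e2] at h
    rw [h]
    exact Fc_abs_le hMA P he _
  rcases huv with h | h
  · exact key (1, 0) (Or.inl rfl) (by rw [h]; unfold tr; exact Prod.ext (by simp only; ring) (by simp))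
  · exact key (0, 1) (Or.inr rfl) (by rw [h]; unfold tr; exact Prod.ext (by simp) (by simp only; ring))

/-! ### The relative partition function of an annulus under a rotation of the inner spins -/

section cocycle

variable [NeZero n]

/-- relative partition function -/
noncomputable def Qt (A : Finset Z2) (β : ℝ) (p : Z2) (l : ℤ) (P : Pl n) (φ : Z2 → ℝ) (t : ℝ)
    (σ : Z2 → Spin n) : ℝ :=
  Gb A (W β p l) (fun σ => Real.exp (DW β p l P (fun x => t * φ x) σ)) σ

lemma act_rg_add (P : Pl n) (f g : Z2 → ℝ) (σ : Z2 → Spin n) :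
    act (P.rg f) (act (P.rg g) σ) = act (P.rg fun x => f x + g x) σ := by
  funext x
  apply Subtype.ext
  rw [coe_act, coe_act, coe_act]
  unfold Pl.rg
  rw [P.rot_add]

lemma Qt_pos (A : Finset Z2) (β : ℝ) (p : Z2) (l : ℤ) (P : Pl n) (φ : Z2 → ℝ) (t : ℝ)
    (σ : Z2 → Spin n) : 0 < Qt A β p l P φ t σ := by
  unfold Qt Gb
  have h1 : Continuous fun σ : Z2 → Spin n =>
      Real.exp (DW β p l P (fun x => t * φ x) σ) * Real.exp (W β p l σ) :=
    (cexp (continuous_DW β p l P _)).mul (cexp (continuous_W β p l))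
  exact div_pos (Av_pos A h1 (fun τ => by positivity) σ) (Gb_den_pos (continuous_W β p l) σ)

lemma Qt_add (A : Finset Z2) (β : ℝ) (p : Z2) (l : ℤ) (P : Pl n) (φ : Z2 → ℝ) (s t : ℝ)
    (σ : Z2 → Spin n) :
    Qt A β p l P φ (s + t) σ =
      Qt A β p l P φ s (act (P.rg fun x => t * φ x) σ) * Qt A β p l P φ t σ := by
  have hW := continuous_W (n := n) β p l
  have hpos := Qt_pos A β p l P φ t σ
  have h := Gb_act (D := A) (P.rg fun x => t * φ x) hW
    (cexp (continuous_DW (n := n) β p l P fun x => s * φ x)) σ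
  have e1 : (fun σ : Z2 → Spin n => Real.exp (DW β p l P (fun x => s * φ x)
      (act (P.rg fun x => t * φ x) σ)) *
      Real.exp (W β p l (act (P.rg fun x => t * φ x) σ) - W β p l σ)) =
      fun σ => Real.exp (DW β p l P (fun x => (s + t) * φ x) σ) := by
    funext τ
    rw [← Real.exp_add]
    congr 1
    unfold DW
    rw [act_rg_add]
    have : (fun x => s * φ x + t * φ x) = fun x => (s + t) * φ x := by
      funext x; ring
    rw [this]
    ring
  rw [e1] at h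
  unfold Qt at hpos ⊢
  rw [h]
  unfold DW at hpos ⊢
  field_simp

lemma Qt_zero (A : Finset Z2) (β : ℝ) (p : Z2) (l : ℤ) (P : Pl n) (φ : Z2 → ℝ)
    (σ : Z2 → Spin n) : Qt A β p l P φ 0 σ = 1 := by
  unfold Qt
  have e1 : (fun σ : Z2 → Spin n => Real.exp (DW β p l P (fun x => 0 * φ x) σ)) =
      fun _ => 1 := by
    funext τ
    unfold DW
    have : act (P.rg fun x => 0 * φ x) τ = τ := by
      funext x
      apply Subtype.ext
      rw [coe_act]
      unfold Pl.rg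
      beta_reduce
      rw [zero_mul, P.rot_zero]
      rfl
    rw [this, sub_self, Real.exp_zero]
  rw [e1, Gb_const (continuous_W β p l)]

/-- first order bound -/
lemma Qt_small {A : Finset Z2} {β : ℝ} (hβ : 0 ≤ β) {p : Z2} {l : ℤ} (hl : 0 ≤ l) (P : Pl n)
    {φ : Z2 → ℝ} (hφ : ∀ u v, Nb u v → |φ u - φ v| ≤ 1) {δ : ℝ}
    (hδ : ∀ σ, |Gb A (W β p l) (Jc β p l φ P.X) σ| ≤ δ) :
    ∃ C t0 : ℝ, 0 ≤ C ∧ 0 < t0 ∧ ∀ t : ℝ, |t| ≤ t0 → ∀ σ,
      Qt A β p l P φ t σ ≤ 1 + |t| * δ + C * |t| ^ 2 := by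
  set K : ℝ := 4 * (l : ℝ) ^ 2 * β + 1 with hK
  have hlb : 0 ≤ (l : ℝ) ^ 2 * β := by positivity
  have hK1 : 1 ≤ K := by rw [hK]; nlinarith only [hlb]
  have hK0 : 0 < K := by linarith
  refine ⟨K ^ 2 + K + 40 * K ^ 3, 1 / (3 * K), by positivity, by positivity, fun t ht σ => ?_⟩
  have hW := continuous_W (n := n) β p l
  have hJ := continuous_Jc (n := n) β p l φ P.X
  have h3 : 3 * K * |t| ≤ 1 := by
    have := mul_le_mul_of_nonneg_left ht (by positivity : (0 : ℝ) ≤ 3 * K)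
    have e : 3 * K * (1 / (3 * K)) = 1 := by field_simp
    linarith only [this, e]
  have ht0 := abs_nonneg t
  have ht1 : |t| ≤ 1 := by nlinarith only [h3, hK1, ht0]
  have hφ' : ∀ u v, Nb u v → u ∈ clo p l → v ∈ clo p l → |φ u - φ v| ≤ 1 :=
    fun u v h _ _ => hφ u v h
  have hpt : ∀ τ : Z2 → Spin n, Real.exp (DW β p l P (fun x => t * φ x) τ) ≤
      (1 + (K ^ 2 + K + 40 * K ^ 3) * |t| ^ 2) + t * Jc β p l φ P.X τ := by
    intro τ
    have h1 := (exp_DW_expand (p := p) hβ hl P hφ (t := t) h3 τ).2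
    have hj : |Jc β p l φ P.X τ| ≤ K := by
      refine (Jc_abs_le hβ p hl P zero_le_one hφ' τ).trans ?_
      rw [hK]; linarith
    have hd : |Dc β p l φ P.X τ| ≤ K := by
      refine (Dc_abs_le hβ p hl P zero_le_one hφ' τ).trans ?_
      rw [hK]; linarith
    have hj2 : (Jc β p l φ P.X τ) ^ 2 ≤ K ^ 2 := by
      rw [← sq_abs]; exact pow_le_pow_left₀ (abs_nonneg _) hj 2
    have hd2 := (abs_le.1 hd).1
    have h4 := (abs_le.1 h1).2
    have h5 : t ^ 2 / 2 * ((Jc β p l φ P.X τ) ^ 2 - Dc β p l φ P.X τ) ≤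
        |t| ^ 2 * (K ^ 2 + K) := by
      rw [← sq_abs]
      have h6 : (Jc β p l φ P.X τ) ^ 2 - Dc β p l φ P.X τ ≤ K ^ 2 + K := by linarith
      have h7 : 0 ≤ |t| ^ 2 := by positivity
      have h8 : 0 ≤ K ^ 2 + K := by positivity
      calc |t| ^ 2 / 2 * ((Jc β p l φ P.X τ) ^ 2 - Dc β p l φ P.X τ) ≤
            |t| ^ 2 / 2 * (K ^ 2 + K) := mul_le_mul_of_nonneg_left h6 (by positivity)
        _ ≤ |t| ^ 2 * (K ^ 2 + K) := by nlinarith only [h7, h8, mul_nonneg h7 h8]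
    have h9 : 40 * K ^ 3 * |t| ^ 3 ≤ 40 * K ^ 3 * |t| ^ 2 :=
      mul_le_mul_of_nonneg_left (pow_le_pow_of_le_one ht0 ht1 (by norm_num)) (by positivity)
    linarith only [h4, h5, h9]
  have hc1 := cexp (continuous_DW (n := n) β p l P (fun x => t * φ x))
  have hc2 : Continuous fun τ : Z2 → Spin n =>
      (1 + (K ^ 2 + K + 40 * K ^ 3) * |t| ^ 2) + t * Jc β p l φ P.X τ :=
    continuous_const.add (continuous_const.mul hJ)
  have h := Gb_mono (D := A) hW hc1 hc2 hpt σ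
  have hc3 : Continuous fun τ : Z2 → Spin n => t * Jc β p l φ P.X τ := continuous_const.mul hJ
  rw [Gb_add hW continuous_const hc3, Gb_const hW, Gb_const_mul] at h
  unfold Qt
  have h10 : t * Gb A (W β p l) (Jc β p l φ P.X) σ ≤ |t| * δ := by
    calc t * Gb A (W β p l) (Jc β p l φ P.X) σ ≤ |t * Gb A (W β p l) (Jc β p l φ P.X) σ| :=
          le_abs_self _
      _ = |t| * |Gb A (W β p l) (Jc β p l φ P.X) σ| := abs_mul _ _
      _ ≤ |t| * δ := mul_le_mul_of_nonneg_left (hδ σ) ht0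
  linarith only [h, h10]

/-- the relative partition function changes at most at the rate given by the current -/
theorem Qt_le {A : Finset Z2} {β : ℝ} (hβ : 0 ≤ β) {p : Z2} {l : ℤ} (hl : 0 ≤ l) (P : Pl n)
    {φ : Z2 → ℝ} (hφ : ∀ u v, Nb u v → |φ u - φ v| ≤ 1) {δ : ℝ} (hδ0 : 0 ≤ δ)
    (hδ : ∀ σ, |Gb A (W β p l) (Jc β p l φ P.X) σ| ≤ δ) (t : ℝ) (σ : Z2 → Spin n) :
    Qt A β p l P φ t σ ≤ Real.exp (|t| * δ) := by
  obtain ⟨C, t0, hC, ht0, hs⟩ := Qt_small hβ hl P hφ hδ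
  -- iteration
  have iter : ∀ h : ℝ, |h| ≤ t0 → ∀ k : ℕ, ∀ σ, Qt A β p l P φ (k * h) σ ≤
      (1 + |h| * δ + C * |h| ^ 2) ^ k := by
    intro h hh k
    induction k with
    | zero => intro σ; simp [Qt_zero]
    | succ k ih =>
      intro σ
      have e : ((k + 1 : ℕ) : ℝ) * h = k * h + h := by push_cast; ring
      rw [e, Qt_add, pow_succ]
      exact mul_le_mul (ih _) (hs h hh σ) (Qt_pos _ _ _ _ _ _ _ _).le (by positivity)
  have hlim : ∀ᶠ N : ℕ in atTop, Qt A β p l P φ t σ ≤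
      Real.exp (|t| * δ + C * |t| ^ 2 / N) := by
    obtain ⟨N0, hN0⟩ := exists_nat_gt (|t| / t0)
    filter_upwards [eventually_ge_atTop (N0 + 1)] with N hN
    have hN1 : (0 : ℝ) < N := by
      have : 0 < N := by omega
      exact_mod_cast this
    have hNN : (N0 : ℝ) ≤ N := by exact_mod_cast (by omega : N0 ≤ N)
    have h1 : |t / N| ≤ t0 := by
      rw [abs_div, Nat.abs_cast, div_le_iff₀ hN1]
      rw [div_lt_iff₀ ht0] at hN0
      nlinarith only [hN0, hNN, ht0]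
    have h2 := iter (t / N) h1 N σ
    have e : (N : ℝ) * (t / N) = t := by field_simp
    rw [e] at h2
    refine h2.trans ?_
    have h3 : 1 + |t / N| * δ + C * |t / N| ^ 2 ≤
        Real.exp (|t / N| * δ + C * |t / N| ^ 2) := by
      have := Real.add_one_le_exp (|t / N| * δ + C * |t / N| ^ 2)
      linarith
    have h4 := pow_le_pow_left₀ (by positivity) h3 N
    refine h4.trans (le_of_eq ?_)
    rw [← Real.exp_nat_mul]
    congr 1
    rw [abs_div, Nat.abs_cast]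
    field_simp
  have htend : Tendsto (fun N : ℕ => Real.exp (|t| * δ + C * |t| ^ 2 / N)) atTop
      (𝓝 (Real.exp (|t| * δ + 0))) := by
    refine (Real.continuous_exp.tendsto _).comp ?_
    exact tendsto_const_nhds.add (tendsto_const_div_atTop_nhds_zero_nat _)
  rw [add_zero] at htend
  exact ge_of_tendsto htend hlim

theorem Qt_ge {A : Finset Z2} {β : ℝ} (hβ : 0 ≤ β) {p : Z2} {l : ℤ} (hl : 0 ≤ l) (P : Pl n)
    {φ : Z2 → ℝ} (hφ : ∀ u v, Nb u v → |φ u - φ v| ≤ 1) {δ : ℝ} (hδ0 : 0 ≤ δ)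
    (hδ : ∀ σ, |Gb A (W β p l) (Jc β p l φ P.X) σ| ≤ δ) (t : ℝ) (σ : Z2 → Spin n) :
    Real.exp (-(|t| * δ)) ≤ Qt A β p l P φ t σ := by
  have h1 := Qt_add A β p l P φ (-t) t σ
  rw [neg_add_cancel, Qt_zero] at h1
  have h2 := Qt_le hβ hl P hφ hδ0 hδ (-t) (act (P.rg fun x => t * φ x) σ)
  rw [abs_neg] at h2
  have h3 := Qt_pos A β p l P φ t σ
  rw [Real.exp_neg]
  rw [inv_le_iff_one_le_mul₀ (Real.exp_pos _)]
  nlinarith only [h1, h2, h3]

lemma Qt_sub_one_abs_le {A : Finset Z2} {β : ℝ} (hβ : 0 ≤ β) {p : Z2} {l : ℤ} (hl : 0 ≤ l)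
    (P : Pl n) {φ : Z2 → ℝ} (hφ : ∀ u v, Nb u v → |φ u - φ v| ≤ 1) {δ : ℝ} (hδ0 : 0 ≤ δ)
    (hδ : ∀ σ, |Gb A (W β p l) (Jc β p l φ P.X) σ| ≤ δ) (t : ℝ) (σ : Z2 → Spin n) :
    |Qt A β p l P φ t σ - 1| ≤ Real.exp (|t| * δ) - 1 := by
  have h1 := Qt_le hβ hl P hφ hδ0 hδ t σ
  have h2 := Qt_ge hβ hl P hφ hδ0 hδ t σ
  have h3 : 1 - Real.exp (-(|t| * δ)) ≤ Real.exp (|t| * δ) - 1 := by
    rw [Real.exp_neg]
    have h4 : 1 ≤ Real.exp (|t| * δ) := Real.one_le_exp (by positivity)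
    have h5 : 0 < Real.exp (|t| * δ) := by linarith
    have h6 : 1 - (Real.exp (|t| * δ))⁻¹ = (Real.exp (|t| * δ) - 1) / Real.exp (|t| * δ) := by
      field_simp
    rw [h6, div_le_iff₀ h5]
    nlinarith only [h4]
  rw [abs_le]
  constructor <;> linarith

end cocycle

/-! ### The total current across a layer -/

section layer

variable [NeZero n]

/-- indicator of the closed box of radius `ρ` -/
noncomputable def ind (ρ : ℤ) (x : Z2) : ℝ := if x ∈ clo (-ρ, -ρ) (2 * ρ) then 1 else 0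

lemma ind_lip (ρ : ℤ) (u v : Z2) : |ind ρ u - ind ρ v| ≤ 1 := by
  unfold ind
  split_ifs <;> norm_num

/-- the unit squares that meet the layer -/
noncomputable def lay (ρ : ℤ) : Finset Z2 :=
  (({ρ, -ρ - 1} : Finset ℤ) ×ˢ Finset.Ico (-ρ - 1) (ρ + 1)) ∪
    (Finset.Ico (-ρ - 1) (ρ + 1) ×ˢ ({ρ, -ρ - 1} : Finset ℤ))

lemma card_lay {ρ : ℤ} (hρ : 0 ≤ ρ) : ((lay ρ).card : ℝ) ≤ 8 * (ρ + 1) := by
  have h1 : (lay ρ).card ≤ 2 * (2 * ρ + 2).toNat + (2 * ρ + 2).toNat * 2 := by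
    unfold lay
    refine (Finset.card_union_le _ _).trans ?_
    rw [Finset.card_product, Finset.card_product, Int.card_Ico]
    have h2 : ({ρ, -ρ - 1} : Finset ℤ).card ≤ 2 := Finset.card_le_two
    have h3 : ρ + 1 - (-ρ - 1) = 2 * ρ + 2 := by ring
    rw [h3]
    exact add_le_add (Nat.mul_le_mul_right _ h2) (Nat.mul_le_mul_left _ h2)
  have h2 : ((2 * ρ + 2).toNat : ℤ) = 2 * ρ + 2 := Int.toNat_of_nonneg (by omega)
  have h3 : ((lay ρ).card : ℤ) ≤ 8 * (ρ + 1) := by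
    have : ((lay ρ).card : ℤ) ≤ 2 * (2 * ρ + 2).toNat + (2 * ρ + 2).toNat * 2 := by
      exact_mod_cast h1
    omega
  exact_mod_cast h3

lemma pq_ind {ρ : ℤ} (hρ : 0 ≤ ρ) (q : Z2) :
    pq (fun u v => |ind ρ u - ind ρ v|) q ≤ if q ∈ lay ρ then 2 else 0 := by
  by_cases hq : q ∈ lay ρ
  · rw [if_pos hq]
    unfold pq
    have h := ind_lip ρ
    have h1 := h q (q.1 + 1, q.2)
    have h2 := h (q.1, q.2 + 1) (q.1 + 1, q.2 + 1)
    have h3 := h q (q.1, q.2 + 1)
    have h4 := h (q.1 + 1, q.2) (q.1 + 1, q.2 + 1)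
    linarith
  · rw [if_neg hq]
    have key : ∀ u v, IsBond q u v → ind ρ u = ind ρ v := by
      intro u v huv
      unfold ind
      have hq' : ¬ (((q.1 = ρ ∨ q.1 = -ρ - 1) ∧ (-ρ - 1 ≤ q.2 ∧ q.2 < ρ + 1)) ∨
          ((-ρ - 1 ≤ q.1 ∧ q.1 < ρ + 1) ∧ (q.2 = ρ ∨ q.2 = -ρ - 1))) := by
        simpa [lay] using hq
      have : u ∈ clo (-ρ, -ρ) (2 * ρ) ↔ v ∈ clo (-ρ, -ρ) (2 * ρ) := by
        rw [mem_clo, mem_clo]
        rcases huv with ⟨rfl, rfl⟩ | ⟨rfl, rfl⟩ | ⟨rfl, rfl⟩ | ⟨rfl, rfl⟩ <;> simp only <;> omega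
      simp only [this]
    have : pq (fun u v => |ind ρ u - ind ρ v|) q = pq (fun _ _ => 0) q :=
      pq_congr fun u v huv => by rw [key u v huv]; simp
    rw [this]
    unfold pq
    norm_num

/-- linearity -/
lemma Gb_Jc {A : Finset Z2} (β : ℝ) (p : Z2) (l : ℤ) (P : Pl n) (φ : Z2 → ℝ)
    (σ : Z2 → Spin n) :
    Gb A (W β p l) (Jc β p l φ P.X) σ =
      PS p l fun u v => β * ((φ u - φ v) * Gb A (W β p l) (cur P u v) σ) := by
  have hW := continuous_W (n := n) β p l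
  unfold Jc PSb PS
  rw [Gb_sum _ hW (fun q _ => by
    unfold pq
    have h := fun u v => continuous_cur P u v
    unfold cur at h
    fun_prop)]
  refine Finset.sum_congr rfl fun q _ => ?_
  unfold pq
  have hc := fun u v => continuous_cur P u v
  have e : (fun σ : Z2 → Spin n =>
      (β * ((φ q - φ (q.1 + 1, q.2)) * ⟪P.X (σ q : E n), (σ (q.1 + 1, q.2) : E n)⟫) +
        β * ((φ (q.1, q.2 + 1) - φ (q.1 + 1, q.2 + 1)) *
          ⟪P.X (σ (q.1, q.2 + 1) : E n), (σ (q.1 + 1, q.2 + 1) : E n)⟫) +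
        β * ((φ q - φ (q.1, q.2 + 1)) * ⟪P.X (σ q : E n), (σ (q.1, q.2 + 1) : E n)⟫) +
        β * ((φ (q.1 + 1, q.2) - φ (q.1 + 1, q.2 + 1)) *
          ⟪P.X (σ (q.1 + 1, q.2) : E n), (σ (q.1 + 1, q.2 + 1) : E n)⟫)) / 2) =
      fun σ => (β * (φ q - φ (q.1 + 1, q.2)) / 2) * cur P q (q.1 + 1, q.2) σ +
        ((β * (φ (q.1, q.2 + 1) - φ (q.1 + 1, q.2 + 1)) / 2) *
          cur P (q.1, q.2 + 1) (q.1 + 1, q.2 + 1) σ +
        ((β * (φ q - φ (q.1, q.2 + 1)) / 2) * cur P q (q.1, q.2 + 1) σ +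
        (β * (φ (q.1 + 1, q.2) - φ (q.1 + 1, q.2 + 1)) / 2) *
          cur P (q.1 + 1, q.2) (q.1 + 1, q.2 + 1) σ)) := by
    funext τ
    unfold cur
    ring
  rw [e]
  have g4 : ∀ (c1 c2 c3 c4 : ℝ) (u1 v1 u2 v2 u3 v3 u4 v4 : Z2),
      Gb A (W β p l) (fun σ => c1 * cur P u1 v1 σ + (c2 * cur P u2 v2 σ +
        (c3 * cur P u3 v3 σ + c4 * cur P u4 v4 σ))) σ =
      c1 * Gb A (W β p l) (cur P u1 v1) σ + (c2 * Gb A (W β p l) (cur P u2 v2) σ +
        (c3 * Gb A (W β p l) (cur P u3 v3) σ + c4 * Gb A (W β p l) (cur P u4 v4) σ)) := by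
    intro c1 c2 c3 c4 u1 v1 u2 v2 u3 v3 u4 v4
    have k1 : Continuous fun σ : Z2 → Spin n => c1 * cur P u1 v1 σ := (hc _ _).const_mul _
    have k2 : Continuous fun σ : Z2 → Spin n => c2 * cur P u2 v2 σ := (hc _ _).const_mul _
    have k3 : Continuous fun σ : Z2 → Spin n => c3 * cur P u3 v3 σ := (hc _ _).const_mul _
    have k4 : Continuous fun σ : Z2 → Spin n => c4 * cur P u4 v4 σ := (hc _ _).const_mul _
    have k34 : Continuous fun σ : Z2 → Spin n => c3 * cur P u3 v3 σ + c4 * cur P u4 v4 σ :=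
      k3.add k4
    have k234 : Continuous fun σ : Z2 → Spin n => c2 * cur P u2 v2 σ +
        (c3 * cur P u3 v3 σ + c4 * cur P u4 v4 σ) := k2.add k34
    rw [Gb_add hW k1 k234, Gb_add hW k2 k34, Gb_add hW k3 k4,
      Gb_const_mul, Gb_const_mul, Gb_const_mul, Gb_const_mul]
  rw [g4]
  ring

/-- the bond that crosses the layer sees arbitrary spins only at distance `L` -/
lemma cur_annulus {β : ℝ} {r L : ℤ} (hr : 0 ≤ r) (hL : 0 < L) {a : ℝ} (hMA : MA n β L a)
    (P : Pl n) {u v : Z2} (huv : Nb u v) (hne : ind (r + L) u ≠ ind (r + L) v)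
    (σ : Z2 → Spin n) :
    |Gb (inn (-(r + 2 * L + 1), -(r + 2 * L + 1)) (2 * (r + 2 * L + 1)) \
        clo (-r, -r) (2 * r)) (W β (-(r + 2 * L + 1), -(r + 2 * L + 1)) (2 * (r + 2 * L + 1)))
      (cur P u v) σ| ≤ a := by
  set A := inn (-(r + 2 * L + 1), -(r + 2 * L + 1)) (2 * (r + 2 * L + 1)) \
        clo (-r, -r) (2 * r) with hA
  have hW := continuous_W (n := n) β (-(r + 2 * L + 1), -(r + 2 * L + 1)) (2 * (r + 2 * L + 1))
  have hW' := continuous_W (n := n) β (u.1 - L, u.2 - L) (2 * L)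
  have hloc : (u ∈ clo (-(r + L), -(r + L)) (2 * (r + L)) ∧
      v ∉ clo (-(r + L), -(r + L)) (2 * (r + L))) ∨
      (u ∉ clo (-(r + L), -(r + L)) (2 * (r + L)) ∧
      v ∈ clo (-(r + L), -(r + L)) (2 * (r + L))) := by
    unfold ind at hne
    by_cases h1 : u ∈ clo (-(r + L), -(r + L)) (2 * (r + L)) <;>
      by_cases h2 : v ∈ clo (-(r + L), -(r + L)) (2 * (r + L)) <;> simp_all
  rw [mem_clo, mem_clo] at hloc
  simp only at hloc
  have hu : (-(r + L + 1) ≤ u.1 ∧ u.1 ≤ r + L) ∧ (-(r + L + 1) ≤ u.2 ∧ u.2 ≤ r + L) ∧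
      (u.1 = r + L ∨ u.2 = r + L ∨ u.1 = -(r + L + 1) ∨ u.2 = -(r + L + 1)) := by
    rcases huv with h | h
    · have h1 : v.1 = u.1 + 1 := by rw [h]
      have h2 : v.2 = u.2 := by rw [h]
      omega
    · have h1 : v.1 = u.1 := by rw [h]
      have h2 : v.2 = u.2 + 1 := by rw [h]
      omega
  have hsub : inn (u.1 - L, u.2 - L) (2 * L) ⊆ A := by
    intro x hx
    rw [mem_inn] at hx
    rw [hA, Finset.mem_sdiff, mem_inn, mem_clo]
    simp only at hx ⊢
    omega
  have hsb : SubBox (u.1 - L, u.2 - L) (2 * L)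
      (-(r + 2 * L + 1), -(r + 2 * L + 1)) (2 * (r + 2 * L + 1)) := by
    simp only [SubBox]
    omega
  have h := Gb_Gb hsub hW hW' (continuous_cur P u v) (noDep_sub_PSb hsb _) σ
  rw [← h]
  exact Gb_abs_le hW (continuous_Gb hW' (continuous_cur P u v))
    (fun τ => cur_le_of_MA hMA P huv τ) σ

lemma Jc_annulus {β : ℝ} (hβ : 0 ≤ β) {r L : ℤ} (hr : 0 ≤ r) (hL : 0 < L) {a : ℝ} (ha : 0 ≤ a)
    (hMA : MA n β L a) (P : Pl n) (σ : Z2 → Spin n) :
    |Gb (inn (-(r + 2 * L + 1), -(r + 2 * L + 1)) (2 * (r + 2 * L + 1)) \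
        clo (-r, -r) (2 * r)) (W β (-(r + 2 * L + 1), -(r + 2 * L + 1)) (2 * (r + 2 * L + 1)))
      (Jc β (-(r + 2 * L + 1), -(r + 2 * L + 1)) (2 * (r + 2 * L + 1)) (ind (r + L)) P.X) σ| ≤
      16 * (r + L + 1) * β * a := by
  rw [Gb_Jc]
  refine (PS_abs_le_PS (b' := fun u v => (β * a) * |ind (r + L) u - ind (r + L) v|)
    fun u v huv _ _ => ?_).trans ?_
  · rw [abs_mul, abs_of_nonneg hβ, abs_mul]
    by_cases hne : ind (r + L) u = ind (r + L) v
    · rw [hne, sub_self, abs_zero]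
      simp
    · have h := cur_annulus (β := β) hr hL hMA P huv hne σ
      calc _ ≤ β * (|ind (r + L) u - ind (r + L) v| * a) := by
            gcongr
        _ = _ := by ring
  · rw [PS_const_mul]
    have hρ : 0 ≤ r + L := by omega
    have h1 : PS (-(r + 2 * L + 1), -(r + 2 * L + 1)) (2 * (r + 2 * L + 1))
        (fun u v => |ind (r + L) u - ind (r + L) v|) ≤ 2 * (8 * ((r + L : ℤ) + 1)) := by
      unfold PS
      refine (Finset.sum_le_sum fun q _ => pq_ind hρ q).trans ?_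
      rw [Finset.sum_ite_mem, Finset.sum_const, nsmul_eq_mul]
      have h2 : ((plaq (-(r + 2 * L + 1), -(r + 2 * L + 1)) (2 * (r + 2 * L + 1)) ∩
          lay (r + L)).card : ℝ) ≤ 8 * ((r + L : ℤ) + 1) := by
        refine le_trans ?_ (card_lay hρ)
        exact_mod_cast Finset.card_le_card Finset.inter_subset_right
      linarith
    have h3 := mul_le_mul_of_nonneg_left h1 (mul_nonneg hβ ha)
    refine h3.trans (le_of_eq ?_)
    push_cast
    ring

/-- Decoupling of an odd observable of the inner box from the spins outside the annulus. -/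
theorem kbound {β : ℝ} (hβ : 0 ≤ β) {r L : ℤ} (hr : 0 ≤ r) (hL : 0 < L) {a : ℝ} (ha : 0 ≤ a)
    (hMA : MA n β L a) (P : Pl n) {F : (Z2 → Spin n) → ℝ} (hF : Continuous F)
    (hloc : LocIn (clo (-r, -r) (2 * r)) F)
    (hodd : ∀ σ, F (act (P.rg fun _ => Real.pi) σ) = -F σ) {B : ℝ} (hB : ∀ σ, |F σ| ≤ B)
    (σ : Z2 → Spin n) :
    |Gc β (-(r + 2 * L + 1), -(r + 2 * L + 1)) (2 * (r + 2 * L + 1)) F σ| ≤
      B / 2 * (Real.exp (Real.pi * (16 * (r + L + 1) * β * a)) - 1) := by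
  set R : ℤ := r + 2 * L + 1 with hR
  set A := inn (-R, -R) (2 * R) \ clo (-r, -r) (2 * r) with hA
  have hW := continuous_W (n := n) β (-R, -R) (2 * R)
  set h : Gau Z2 n := P.rg fun x => Real.pi * ind (r + L) x with hh
  have hsupp : SuppIn (inn (-R, -R) (2 * R)) h := by
    refine Vale.Agent.P163.suppIn_rg P fun x hx => ?_
    unfold ind
    rw [if_neg, mul_zero]
    intro hx2
    apply hx
    rw [mem_clo] at hx2
    rw [mem_inn]
    simp only at hx2 ⊢
    omega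
  have hact : ∀ τ : Z2 → Spin n, F (act h τ) = -F τ := by
    intro τ
    rw [← hodd τ]
    refine hloc _ _ fun x hx => ?_
    apply Subtype.ext
    rw [coe_act, coe_act, hh]
    unfold Pl.rg
    beta_reduce
    have : ind (r + L) x = 1 := by
      unfold ind
      rw [if_pos]
      rw [mem_clo] at hx ⊢
      simp only at hx ⊢
      omega
    rw [this, mul_one]
  have h1 := Gb_act_supp' hsupp hW hF σ
  set δ : ℝ := 16 * (r + L + 1) * β * a with hδdef
  have hrL : (0 : ℝ) ≤ r + L + 1 := by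
    have : (0 : ℤ) ≤ r + L + 1 := by omega
    exact_mod_cast this
  have hδ0 : 0 ≤ δ := by positivity
  have hδ := fun τ => Jc_annulus (n := n) hβ hr hL ha hMA P τ
  rw [← hR, ← hA, ← hδdef] at hδ
  have hlR : 0 ≤ 2 * R := by omega
  have hQ := fun τ => Qt_sub_one_abs_le (A := A) hβ (p := (-R, -R)) hlR P
    (fun u v _ => ind_lip (r + L) u v) hδ0 hδ Real.pi τ
  rw [abs_of_pos Real.pi_pos] at hQ
  have hQc : Continuous (Qt A β (-R, -R) (2 * R) P (ind (r + L)) Real.pi) :=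
    continuous_Gb hW (cexp (continuous_DW _ _ _ _ _))
  have hnd : NoDep A F := hloc.noDep (by
    rw [hA]; exact Finset.sdiff_disjoint)
  -- conditional expectation given the spins outside the annulus
  have hE : Continuous fun τ : Z2 → Spin n =>
      Real.exp (DW β (-R, -R) (2 * R) P (fun x => Real.pi * ind (r + L) x) τ) :=
    cexp (continuous_DW _ _ _ _ _)
  have h2 : Gb (inn (-R, -R) (2 * R)) (W β (-R, -R) (2 * R)) (fun τ => F τ *
      Real.exp (DW β (-R, -R) (2 * R) P (fun x => Real.pi * ind (r + L) x) τ)) σ =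
      Gb (inn (-R, -R) (2 * R)) (W β (-R, -R) (2 * R)) (fun τ => F τ *
        Qt A β (-R, -R) (2 * R) P (ind (r + L)) Real.pi τ) σ := by
    have hFE : Continuous fun τ : Z2 → Spin n => F τ *
        Real.exp (DW β (-R, -R) (2 * R) P (fun x => Real.pi * ind (r + L) x) τ) := hF.mul hE
    have hAs : A ⊆ inn (-R, -R) (2 * R) := by rw [hA]; exact Finset.sdiff_subset
    rw [← Gb_Gb (D' := A) hAs hW hW hFE (fun ξ τ => by simp) σ]
    congr 1
    funext τ
    exact Gb_mul_of_NoDep hnd τ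
  have e1 : (fun τ : Z2 → Spin n => F (act h τ) *
      Real.exp (W β (-R, -R) (2 * R) (act h τ) - W β (-R, -R) (2 * R) τ)) =
      fun τ => (-1) * (F τ *
        Real.exp (DW β (-R, -R) (2 * R) P (fun x => Real.pi * ind (r + L) x) τ)) := by
    funext τ
    rw [hact τ]
    unfold DW
    ring
  rw [e1, Gb_const_mul, h2] at h1
  have h3 : Gb (inn (-R, -R) (2 * R)) (W β (-R, -R) (2 * R)) (fun τ => F τ *
      (Qt A β (-R, -R) (2 * R) P (ind (r + L)) Real.pi τ - 1)) σ =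
      -2 * Gb (inn (-R, -R) (2 * R)) (W β (-R, -R) (2 * R)) F σ := by
    have e2 : (fun τ => F τ * (Qt A β (-R, -R) (2 * R) P (ind (r + L)) Real.pi τ - 1)) =
        fun τ => F τ * Qt A β (-R, -R) (2 * R) P (ind (r + L)) Real.pi τ - F τ := by
      funext τ; ring
    have hFQ : Continuous fun τ => F τ * Qt A β (-R, -R) (2 * R) P (ind (r + L)) Real.pi τ :=
      hF.mul hQc
    rw [e2, Gb_sub hW hFQ hF]
    linarith
  have h4 := Gb_abs_le (D := inn (-R, -R) (2 * R)) hW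
    (f := fun τ => F τ * (Qt A β (-R, -R) (2 * R) P (ind (r + L)) Real.pi τ - 1))
    (hF.mul (hQc.sub continuous_const))
    (C := B * (Real.exp (Real.pi * δ) - 1)) (fun τ => by
      rw [abs_mul]
      exact mul_le_mul (hB τ) (hQ τ) (abs_nonneg _) ((abs_nonneg _).trans (hB τ))) σ
  rw [h3, abs_mul] at h4
  have h5 : |(-2 : ℝ)| = 2 := by norm_num
  rw [h5] at h4
  change |Gb (inn (-R, -R) (2 * R)) (W β (-R, -R) (2 * R)) F σ| ≤ _
  linarith

end layer

end Vale.Agent.P163.H841
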