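import Vale.Agent.P163.H841.Fer

/-!
The constant boundary condition, as a ferromagnet with one more site.
-/

open MeasureTheory Filter Topology
open scoped RealInnerProductSpace

set_option linter.unusedSectionVars false

namespace Vale.Agent.P163.H841

open Vale.Agent.P163 Vale.Agent.P163.MW Vale.Agent.P163.Universal

variable {n : ℕ}

open Classical in
/-- couplings of the region `Λ` with one more site, which stands for all the sites outside -/
noncomputable def Jg (β : ℝ) (Λ : Finset Z2) : Option Λ → Option Λ → ℝ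
  | some u, some v => if v.1 ∈ nb4 u.1 then β else 0
  | some u, none => β * ((nb4 u.1).filter fun q => q ∉ Λ).card
  | none, some u => β * ((nb4 u.1).filter fun q => q ∉ Λ).card
  | none, none => 0

open Classical in
/-- the chart around `x` -/
noncomputable def ιg (Λ : Finset Z2) (x y : Z2) : Option Λ :=
  if h : tr x y ∈ Λ then some ⟨tr x y, h⟩ else none

lemma nb4_tr {x y q : Z2} : tr x q ∈ nb4 (tr x y) ↔ q ∈ nb4 y := by
  unfold nb4 tr
  simp only [Finset.mem_insert, Finset.mem_singleton, Prod.ext_iff]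
  omega

lemma supDist_tr (x y : Z2) : supDist (tr x y) x = supDist y 0 := by
  unfold supDist tr
  simp

lemma nbr_supDist {y q : Z2} {r : ℤ} (hq : q ∈ nb4 y) (hy : supDist y 0 < r) :
    supDist q 0 ≤ r := by
  rw [supDist_zero_lt] at hy
  rw [supDist_zero_le]
  simp only [nb4, Finset.mem_insert, Finset.mem_singleton, Prod.ext_iff] at hq
  omega

lemma containsBox_g {β : ℝ} (hβ : 0 ≤ β) {Λ : Finset Z2} {x : Z2} {r : ℕ}
    (hΛ : ∀ y, supDist y x < ((r + 1 : ℕ) : ℤ) → y ∈ Λ) : ContainsBox β r (Jg β Λ) (ιg Λ x) := by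
  classical
  have hin : ∀ y : Z2, supDist y 0 ≤ r → tr x y ∈ Λ := fun y hy => hΛ _ (by
    rw [supDist_tr]; push_cast; omega)
  have hι : ∀ (y : Z2) (hy : supDist y 0 ≤ r), ιg Λ x y = some ⟨tr x y, hin y hy⟩ := by
    intro y hy
    unfold ιg
    rw [dif_pos (hin y hy)]
  refine ⟨?_, ?_, ?_, ?_, ?_, ?_⟩
  · rintro (_ | u) (_ | v)
    · rfl
    · rfl
    · rfl
    · change (if v.1 ∈ nb4 u.1 then β else 0) = (if u.1 ∈ nb4 v.1 then β else 0)
      have : v.1 ∈ nb4 u.1 ↔ u.1 ∈ nb4 v.1 := ⟨mem_nb4_symm, mem_nb4_symm⟩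
      simp only [this]
  · rintro (_ | u)
    · rfl
    · change (if u.1 ∈ nb4 u.1 then β else 0) = 0
      rw [if_neg (not_mem_nb4_self _)]
  · rintro (_ | u) (_ | v)
    · exact le_rfl
    · exact mul_nonneg hβ (Nat.cast_nonneg _)
    · exact mul_nonneg hβ (Nat.cast_nonneg _)
    · change 0 ≤ (if v.1 ∈ nb4 u.1 then β else 0)
      split_ifs <;> simp [hβ]
  · intro y hy z hz h
    rw [hι y hy, hι z hz] at h
    have h1 := Option.some.inj h
    exact tr_inj x (congrArg Subtype.val h1)
  · intro y hy q hq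
    have hq' := nbr_supDist hq hy
    rw [hι y hy.le, hι q hq']
    change (if tr x q ∈ nb4 (tr x y) then β else 0) = β
    rw [if_pos (nb4_tr.2 hq)]
  · intro y hy v hv
    rw [hι y hy.le]
    rcases v with _ | u
    · change β * (((nb4 (tr x y)).filter fun q => q ∉ Λ).card : ℝ) = 0
      have : (nb4 (tr x y)).filter (fun q => q ∉ Λ) = ∅ := by
        rw [Finset.filter_eq_empty_iff]
        intro q hq hqΛ
        apply hqΛ
        -- `q` is the translate of a neighbour of `y`
        have e : q = tr x (q.1 - x.1, q.2 - x.2) := by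
          unfold tr; exact Prod.ext (by simp) (by simp)
        rw [e] at hq ⊢
        exact hin _ (nbr_supDist (nb4_tr.1 hq) hy)
      rw [this]
      simp
    · change (if u.1 ∈ nb4 (tr x y) then β else 0) = 0
      rw [if_neg]
      intro hu
      have e : u.1 = tr x (u.1.1 - x.1, u.1.2 - x.2) := by
        unfold tr; exact Prod.ext (by simp) (by simp)
      rw [e] at hu
      have hq := nb4_tr.1 hu
      refine hv _ hq ?_
      rw [hι _ (nbr_supDist hq hy)]
      congr 1
      exact Subtype.ext e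

/-! ### The energy -/

/-- the energy of the ferromagnet with one more site -/
lemma Hh_Jg (β : ℝ) (Λ : Finset Z2) (σ : Option Λ → Spin n) :
    (1 / 2) * ∑ u, ∑ v, Jg β Λ u v * ⟪(σ u : E n), (σ v : E n)⟫ =
      β * bondSum Λ (glue Λ (fun v => σ (some v)) (fun _ => σ none)) := by
  classical
  rw [Fintype.sum_option]
  simp only [Fintype.sum_option]
  have h1 : ∀ u : Λ, Jg β Λ none (some u) * ⟪(σ none : E n), (σ (some u) : E n)⟫ =
      Jg β Λ (some u) none * ⟪(σ (some u) : E n), (σ none : E n)⟫ := by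
    intro u
    rw [real_inner_comm]
    rfl
  have h0 : Jg β Λ (none : Option Λ) none = 0 := rfl
  rw [h0, zero_mul, zero_add, Finset.sum_congr rfl fun u _ => h1 u, Finset.sum_add_distrib]
  have h2 : ∀ u : Λ, ∑ v : Λ, Jg β Λ (some u) (some v) * ⟪(σ (some u) : E n), (σ (some v) : E n)⟫ =
      β * ∑ q ∈ (nb4 u.1).filter (fun q => q ∈ Λ), ⟪(σ (some u) : E n),
        (glue Λ (fun v => σ (some v)) (fun _ => σ none) q : E n)⟫ := by
    intro u
    rw [Finset.mul_sum]
    have e1 : ∀ v : Λ, Jg β Λ (some u) (some v) * ⟪(σ (some u) : E n), (σ (some v) : E n)⟫ =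
        (fun q : Z2 => if q ∈ nb4 u.1 then β * ⟪(σ (some u) : E n),
          (glue Λ (fun v => σ (some v)) (fun _ => σ none) q : E n)⟫ else 0) v.1 := by
      intro v
      have hg : glue Λ (fun v => σ (some v)) (fun _ => σ none) v.1 = σ (some v) := by
        unfold glue; rw [dif_pos v.2]
      change (if v.1 ∈ nb4 u.1 then β else 0) * _ = _
      beta_reduce
      rw [hg]
      split_ifs <;> ring
    rw [Finset.sum_congr rfl fun v _ => e1 v, Finset.sum_coe_sort Λ (fun q : Z2 =>
      if q ∈ nb4 u.1 then β * ⟪(σ (some u) : E n),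
          (glue Λ (fun v => σ (some v)) (fun _ => σ none) q : E n)⟫ else 0), ← Finset.sum_filter]
    refine Finset.sum_congr ?_ fun _ _ => rfl
    ext q
    simp only [Finset.mem_filter]
    tauto
  rw [Finset.sum_congr rfl fun u _ => h2 u]
  have h3 : ∀ u : Λ, Jg β Λ (some u) none * ⟪(σ (some u) : E n), (σ none : E n)⟫ =
      β * ∑ q ∈ (nb4 u.1).filter (fun q => q ∉ Λ), ⟪(σ (some u) : E n),
        (glue Λ (fun v => σ (some v)) (fun _ => σ none) q : E n)⟫ := by
    intro u
    have e1 : ∀ q ∈ (nb4 u.1).filter (fun q => q ∉ Λ), ⟪(σ (some u) : E n),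
        (glue Λ (fun v => σ (some v)) (fun _ => σ none) q : E n)⟫ =
        ⟪(σ (some u) : E n), (σ none : E n)⟫ := by
      intro q hq
      have hg : glue Λ (fun v => σ (some v)) (fun _ => σ none) q = σ none := by
        unfold glue; rw [dif_neg (Finset.mem_filter.1 hq).2]
      rw [hg]
    rw [Finset.sum_congr rfl e1, Finset.sum_const, nsmul_eq_mul]
    change β * (((nb4 u.1).filter fun q => q ∉ Λ).card : ℝ) * _ = _
    ring
  rw [Finset.sum_congr rfl fun u _ => h3 u]
  have h4 : bondSum Λ (glue Λ (fun v => σ (some v)) (fun _ => σ none)) =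
      ∑ u : Λ, (1 / 2 * ∑ q ∈ (nb4 u.1).filter (fun q => q ∈ Λ), ⟪(σ (some u) : E n),
        (glue Λ (fun v => σ (some v)) (fun _ => σ none) q : E n)⟫ +
        ∑ q ∈ (nb4 u.1).filter (fun q => q ∉ Λ), ⟪(σ (some u) : E n),
        (glue Λ (fun v => σ (some v)) (fun _ => σ none) q : E n)⟫) := by
    unfold bondSum
    rw [← Finset.sum_coe_sort Λ]
    refine Finset.sum_congr rfl fun u _ => ?_
    have hg : glue Λ (fun v => σ (some v)) (fun _ => σ none) u.1 = σ (some u) := by
      unfold glue; rw [dif_pos u.2]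
    rw [hg, nbrs_eq, ← Finset.sum_filter_add_sum_filter_not (nb4 u.1) (fun q => q ∈ Λ),
      Finset.mul_sum]
    congr 1
    · refine Finset.sum_congr rfl fun q hq => ?_
      rw [if_pos (Finset.mem_filter.1 hq).2]
    · refine Finset.sum_congr rfl fun q hq => ?_
      rw [if_neg (Finset.mem_filter.1 hq).2, one_mul]
  rw [h4, Finset.mul_sum, ← Finset.sum_add_distrib, ← Finset.sum_add_distrib, Finset.mul_sum]
  refine Finset.sum_congr rfl fun u _ => ?_
  ring

/-! ### Rotation invariance -/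

/-- a unit vector is mapped to another one by an isometry -/
lemma exists_iso (s t : Spin n) : ∃ U : E n ≃ₗᵢ[ℝ] E n, U (s : E n) = t := by
  refine ⟨Submodule.reflection (ℝ ∙ ((s : E n) - t))ᗮ, ?_⟩
  exact Submodule.reflection_sub (by rw [mw_spin_norm, mw_spin_norm])

lemma bondSum_act (U : E n ≃ₗᵢ[ℝ] E n) (Λ : Finset Z2) (τ : Z2 → Spin n) :
    bondSum Λ (act (fun _ => U) τ) = bondSum Λ τ := by
  unfold bondSum
  refine Finset.sum_congr rfl fun x _ => Finset.sum_congr rfl fun y _ => ?_
  rw [coe_act, coe_act, LinearIsometryEquiv.inner_map_map]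

section plus

variable [NeZero n]

lemma Av_const_inv (β : ℝ) (Λ : Finset Z2) (x : Z2) (e t : Spin n) :
    Av Λ (fun τ => ⟪(t : E n), (τ x : E n)⟫ * Real.exp (HL β Λ τ)) (fun _ => t) =
        Av Λ (fun τ => ⟪(e : E n), (τ x : E n)⟫ * Real.exp (HL β Λ τ)) (fun _ => e) ∧
      Av Λ (fun τ => Real.exp (HL β Λ τ)) (fun _ => t) =
        Av Λ (fun τ => Real.exp (HL β Λ τ)) (fun _ => e) := by
  obtain ⟨U, hU⟩ := exists_iso e t
  have hconst : (fun _ : Z2 => t) = act (fun _ => U) (fun _ => e) := by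
    funext y
    apply Subtype.ext
    rw [coe_act, hU]
  have hH := continuous_HL (n := n) β Λ
  constructor
  · rw [hconst, ← Av_act Λ (fun _ => U) (cfe (continuous_ip (t : E n) x) hH)]
    congr 1
    funext τ
    unfold HL
    rw [bondSum_act, coe_act, ← hU, LinearIsometryEquiv.inner_map_map]
  · rw [hconst, ← Av_act Λ (fun _ => U) (cexp hH)]
    congr 1
    funext τ
    unfold HL
    rw [bondSum_act]

/-- the configuration on `Option Λ` with spin `t` on the additional site -/
def ext (Λ : Finset Z2) (t : Spin n) (s : Λ → Spin n) : Option Λ → Spin n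
  | some v => s v
  | none => t

lemma continuous_ext (Λ : Finset Z2) (t : Spin n) : Continuous (ext Λ t) := by
  refine continuous_pi fun o => ?_
  rcases o with _ | v
  · exact continuous_const
  · exact continuous_apply v

open Classical in
lemma Av_ghost (Λ : Finset Z2) {g : (Option Λ → Spin n) → ℝ} (hg : Continuous g)
    (σ : Option Λ → Spin n) :
    Av ((Finset.univ : Finset Λ).image some) g σ =
      ∫ s, g (ext Λ (σ none) s) ∂(QQ Λ n) := by
  rw [← integral_chart (n := n) (c := fun v : Λ => (some v : Option Λ))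
    (Option.some_injective _) (F := fun s => g (ext Λ (σ none) s))
    (hg.comp (continuous_ext Λ _))]
  unfold Av
  congr 1
  funext ξ
  congr 1
  funext o
  rcases o with _ | v
  · rw [Finset.piecewise_eq_of_notMem _ _ _ (by simp)]
    rfl
  · rw [Finset.piecewise_eq_of_mem _ _ _ (by simp)]
    rfl

lemma pi_unif_eq (V : Type) [Fintype V] :
    (Measure.pi fun _ : V => Model.unif n) = QQ V n := by
  have e1 : (fun _ : V => Model.unif n) = fun _ => unif n := by
    funext _; exact model_unif n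
  rw [e1]
  unfold QQ
  rw [Measure.infinitePi_eq_pi]

/-- the magnetization with constant boundary condition is a correlation of a ferromagnet -/
lemma plus_eq {β : ℝ} {Λ : Finset Z2} {x : Z2} (hx : x ∈ Λ) (e : Spin n) :
    ∫ s, ⟪(e : E n), (glue Λ s (fun _ => e) x : E n)⟫ ∂(bcState n β Λ fun _ => e) =
      ∫ σ, ⟪(σ (some ⟨x, hx⟩) : E n), (σ none : E n)⟫ ∂(Model.gibbs n (Jg β Λ)) := by
  classical
  have hH := continuous_HL (n := n) β Λ
  rw [integral_bcState β Λ (F := fun τ => ⟪(e : E n), (τ x : E n)⟫)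
    (continuous_ip (e : E n) x) (fun _ => e)]
  unfold Gb
  set N := Av Λ (fun τ => ⟪(e : E n), (τ x : E n)⟫ * Real.exp (HL β Λ τ)) (fun _ => e) with hN
  set Z := Av Λ (fun τ => Real.exp (HL β Λ τ)) (fun _ => e) with hZ
  -- the ferromagnet
  set HV : (Option Λ → Spin n) → ℝ := fun σ =>
    β * bondSum Λ (glue Λ (fun v => σ (some v)) (fun _ => σ none)) with hHV
  have hHVc : Continuous HV := by
    have e1 : HV = fun σ => (1 / 2) * ∑ u, ∑ v, Jg β Λ u v * ⟪(σ u : E n), (σ v : E n)⟫ := by
      funext σ; rw [Hh_Jg]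
    rw [e1]
    fun_prop
  set F : (Option Λ → Spin n) → ℝ := fun σ => ⟪(σ (some ⟨x, hx⟩) : E n), (σ none : E n)⟫ with hF
  have hFc : Continuous F := by
    rw [hF]; fun_prop
  set D : Finset (Option Λ) := (Finset.univ : Finset Λ).image some with hD
  have hext : ∀ (t : Spin n) (s : Λ → Spin n), HV (ext Λ t s) = HL β Λ (glue Λ s fun _ => t) :=
    fun t s => rfl
  have hFext : ∀ (t : Spin n) (s : Λ → Spin n), F (ext Λ t s) =
      ⟪(t : E n), (glue Λ s (fun _ => t) x : E n)⟫ := by
    intro t s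
    have hg : glue Λ s (fun _ => t) x = s ⟨x, hx⟩ := by unfold glue; rw [dif_pos hx]
    rw [hg, real_inner_comm]
    rfl
  have h1 : ∀ σ, Av D (fun σ => F σ * Real.exp (HV σ)) σ = N := by
    intro σ
    rw [hD, Av_ghost Λ (cfe hFc hHVc)]
    have h2 := (Av_const_inv β Λ x e (σ none)).1
    rw [← hN, Av_eq_glue Λ (cfe (continuous_ip _ x) hH), pi_unif_eq] at h2
    rw [← h2]
    simp only [hext, hFext]
  have h2 : ∀ σ, Av D (fun σ => Real.exp (HV σ)) σ = Z := by
    intro σ
    rw [hD, Av_ghost Λ (cexp hHVc)]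
    have h2 := (Av_const_inv β Λ x e (σ none)).2
    rw [← hZ, Av_eq_glue Λ (cexp hH), pi_unif_eq] at h2
    rw [← h2]
    simp only [hext]
  have huniv : ∀ g : (Option Λ → Spin n) → ℝ, Continuous g → ∀ c : ℝ, (∀ σ, Av D g σ = c) →
      ∫ σ, g σ ∂(QQ (Option Λ) n) = c := by
    intro g hg c hc
    have hne : Nonempty (Option Λ → Spin n) := ⟨fun _ => e⟩
    obtain ⟨σ0⟩ := hne
    have h3 := Av_Av (n := n) (D := (Finset.univ : Finset (Option Λ))) (D' := D)
      (Finset.subset_univ _) hg σ0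
    have h4 : (Av D g) = fun _ => c := funext hc
    rw [h4] at h3
    have h5 : Av (Finset.univ : Finset (Option Λ)) (fun _ => c) σ0 = c := by
      unfold Av; simp
    rw [h5] at h3
    rw [h3]
    unfold Av
    simp
  unfold Model.gibbs
  rw [integral_tilted, pi_unif_eq]
  have e1 : (fun σ : Option Λ → Model.Spin n => (1 / 2) *
      ∑ u, ∑ v, Jg β Λ u v * ⟪(σ u : Model.E n), (σ v : Model.E n)⟫) = HV := by
    funext σ; rw [hHV]; exact Hh_Jg β Λ σ
  have e2 : ∀ σ : Option Λ → Model.Spin n, (1 / 2) *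
      ∑ u, ∑ v, Jg β Λ u v * ⟪(σ u : Model.E n), (σ v : Model.E n)⟫ = HV σ := fun σ =>
    congrFun e1 σ
  simp only [e2]
  have h6 := huniv _ (cfe hFc hHVc) N h1
  have h7 := huniv _ (cexp hHVc) Z h2
  rw [h7, ← h6, ← integral_div]
  congr 1
  funext σ
  rw [smul_eq_mul, hF]
  ring

end plus

/-- Exponential decay of the magnetization with constant boundary condition. -/
theorem plus_decay (hn : 3 ≤ n) {β : ℝ} (hβ : 0 ≤ β) {R R0 : ℤ} (hR : 0 < R) (hRR : R ≤ R0)
    {M : ℝ} (hM : 0 ≤ M) (hMB : MB n β R M) (hq : 32 * β * R * M ≤ n * (1 / 2 : ℝ))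
    {Λ : Finset Z2} {x : Z2} {r : ℕ} (hΛ : ∀ y, supDist y x < r → y ∈ Λ) (e : Spin n) :
    ∫ s, ⟪(e : E n), (glue Λ s (fun _ => e) x : E n)⟫ ∂(bcState n β Λ fun _ => e) ≤
      4 * Real.exp (-(Real.log 2 / (2 * (R0 + 1))) * r) := by
  have : NeZero n := ⟨by omega⟩
  have hlog : 0 < Real.log 2 := Real.log_pos (by norm_num)
  have hRr : (1 : ℝ) ≤ R := by exact_mod_cast hR
  have hRR' : (R : ℝ) ≤ R0 := by exact_mod_cast hRR
  rcases r with _ | r
  · -- trivial bound
    have h1 : |∫ s, ⟪(e : E n), (glue Λ s (fun _ => e) x : E n)⟫ ∂(bcState n β Λ fun _ => e)| ≤ 1 :=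
      region_bound (r := 0) (MB_one (n := n) β 0) (x := x) (by
        intro y hy
        exfalso
        unfold supDist at hy
        have h2 : 0 ≤ max |y.1 - x.1| |y.2 - x.2| := le_max_of_le_left (abs_nonneg _)
        push_cast at hy
        omega) (mw_spin_norm e) _
    have h3 := (abs_le.1 h1).2
    simp only [Nat.cast_zero, mul_zero, Real.exp_zero]
    linarith
  · have hx : x ∈ Λ := hΛ x (by unfold supDist; simp)
    rw [plus_eq hx e]
    have hcb := containsBox_g hβ hΛ
    have hι : ιg Λ x 0 = some ⟨x, hx⟩ := by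
      have ht : tr x 0 = x := by unfold tr; simp
      unfold ιg
      have hx' : tr x 0 ∈ Λ := by rw [ht]; exact hx
      rw [dif_pos hx']
      congr 1
      exact Subtype.ext ht
    have h := ferro_decay hn hβ hR hRR hM hMB hq hcb (v := none) (by
      intro y hy
      have : tr x y ∈ Λ := hΛ _ (by rw [supDist_tr]; push_cast; omega)
      unfold ιg
      rw [dif_pos this]
      simp)
    rw [hι] at h
    refine h.trans ?_
    have h5 : Real.log 2 / (2 * ((R0 : ℝ) + 1)) ≤ Real.log 2 := by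
      rw [div_le_iff₀ (by linarith)]
      nlinarith only [hlog, hRr, hRR']
    have h6 : 2 * Real.exp (-(Real.log 2 / (2 * (R0 + 1))) * r) ≤
        4 * Real.exp (-(Real.log 2 / (2 * (R0 + 1))) * ((r + 1 : ℕ) : ℝ)) := by
      have e2 : (4 : ℝ) = 2 * Real.exp (Real.log 2) := by
        rw [Real.exp_log (by norm_num)]; norm_num
      rw [e2, mul_assoc, ← Real.exp_add]
      refine mul_le_mul_of_nonneg_left ?_ (by norm_num)
      rw [Real.exp_le_exp]
      push_cast
      have e3 : Real.log 2 + -(Real.log 2 / (2 * ((R0 : ℝ) + 1))) * ((r : ℝ) + 1) =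
        -(Real.log 2 / (2 * ((R0 : ℝ) + 1))) * r +
          (Real.log 2 - Real.log 2 / (2 * ((R0 : ℝ) + 1))) := by ring
      rw [e3]
      linarith
    exact h6

end Vale.Agent.P163.H841
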