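import Vale.Agent.P163.H841.KB

/-!
Solution of the recursion: nearly exponential decay for arbitrary boundary conditions.
-/

open MeasureTheory Filter Topology
open scoped RealInnerProductSpace

set_option linter.unusedSectionVars false

namespace Vale.Agent.P163.H841

open Vale.Agent.P163 Vale.Agent.P163.MW

/-! ### Real analysis -/

lemma exp_sub_one_le {x : ℝ} (h0 : 0 ≤ x) (h1 : x ≤ 1) : Real.exp x - 1 ≤ 2 * x := by
  have h := Real.abs_exp_sub_one_le (x := x) (by rw [abs_of_nonneg h0]; exact h1)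
  rw [abs_of_nonneg h0] at h
  exact (le_abs_self _).trans h

/-- The hypotheses of the recursion. -/
structure Rec (α : ℕ → ℝ) (D : ℝ) : Prop where
  D_pos : 0 ≤ D
  nonneg : ∀ R, 0 ≤ α R
  le_one : ∀ R, α R ≤ 1
  anti : ∀ R R', R ≤ R' → α R' ≤ α R
  step : ∀ r L : ℕ, 1 ≤ r → 1 ≤ L →
    α (r + 2 * L + 1) ≤ α r / 2 * (Real.exp (D * (r + L + 1) * α L) - 1)
  small : ∀ ε : ℝ, 0 < ε → ∃ R : ℕ, 1 ≤ R ∧ (2 * R + 1) * α R ≤ ε

namespace Rec

variable {α : ℕ → ℝ} {D : ℝ} (h : Rec α D)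
include h

lemma step' {r L : ℕ} (hr : 1 ≤ r) (hL : 1 ≤ L) (h1 : D * (r + L + 1) * α L ≤ 1) :
    α (r + 2 * L + 1) ≤ D * (r + L + 1) * α L * α r := by
  have h2 := h.step r L hr hL
  have h3 : 0 ≤ D * (r + L + 1) * α L :=
    mul_nonneg (mul_nonneg h.D_pos (by positivity)) (h.nonneg L)
  have h4 := exp_sub_one_le h3 h1
  have h5 := h.nonneg r
  calc _ ≤ _ := h2
    _ ≤ α r / 2 * (2 * (D * (r + L + 1) * α L)) :=
        mul_le_mul_of_nonneg_left h4 (by positivity)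
    _ = _ := by ring

/-- several steps with a bound `q` of the factor -/
lemma iter {L : ℕ} (hL : 1 ≤ L) {q : ℝ} {T : ℕ} (hq : D * ((T : ℝ) + L + 1) * α L ≤ q)
    (hq1 : q ≤ 1) (i : ℕ) (hi : L + i * (2 * L + 1) ≤ T + (2 * L + 1)) :
    α (L + i * (2 * L + 1)) ≤ q ^ i * α L := by
  induction i with
  | zero => simp
  | succ i ih =>
    have e : L + (i + 1) * (2 * L + 1) = (L + i * (2 * L + 1)) + 2 * L + 1 := by ring
    have hi' : L + i * (2 * L + 1) ≤ T := by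
      rw [e] at hi; omega
    have h1 : ((L + i * (2 * L + 1) : ℕ) : ℝ) ≤ T := by exact_mod_cast hi'
    have h2 : D * (((L + i * (2 * L + 1) : ℕ) : ℝ) + L + 1) * α L ≤ q := by
      refine le_trans ?_ hq
      exact mul_le_mul_of_nonneg_right (mul_le_mul_of_nonneg_left (by linarith) h.D_pos)
        (h.nonneg L)
    have h3 := h.step' (r := L + i * (2 * L + 1)) (by omega) hL (h2.trans hq1)
    rw [e]
    refine h3.trans ?_
    have h4 := ih (by omega)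
    have h5 : 0 ≤ D * (((L + i * (2 * L + 1) : ℕ) : ℝ) + L + 1) * α L :=
      mul_nonneg (mul_nonneg h.D_pos (by positivity)) (h.nonneg L)
    have hq0 : 0 ≤ q := h5.trans h2
    calc _ ≤ q * (q ^ i * α L) :=
          mul_le_mul h2 h4 (h.nonneg _) hq0
      _ = _ := by ring

/-- multiplication of the scale by `3 K + 1` -/
lemma mult {K : ℕ} (hK : 1 ≤ K) {E : ℝ} (hE : (3 * K + 1) * (D * (3 * K + 3)) ≤ E) (hE1 : 1 ≤ E)
    {L : ℕ} (hL : 1 ≤ L) (hb : E * L * α L ≤ 1) :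
    E * ((3 * K + 1) * L : ℕ) * α ((3 * K + 1) * L) ≤ (E * L * α L) ^ (K + 1) := by
  have hLr : (1 : ℝ) ≤ L := by exact_mod_cast hL
  have hKr : (1 : ℝ) ≤ K := by exact_mod_cast hK
  have hα := h.nonneg L
  have hD := h.D_pos
  set b := E * L * α L with hbdef
  have hb0 : 0 ≤ b := by positivity
  -- the factor of one step
  set q := b / (3 * K + 1) with hqdef
  have hq1 : q ≤ 1 := by
    rw [hqdef, div_le_one (by positivity)]
    linarith
  have hq : D * (((3 * K * L : ℕ) : ℝ) + L + 1) * α L ≤ q := by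
    rw [hqdef, le_div_iff₀ (by positivity)]
    push_cast
    have h1 : (3 * (K : ℝ) * L + L + 1) ≤ (3 * K + 3) * L := by nlinarith only [hLr, hKr]
    calc D * (3 * (K : ℝ) * L + L + 1) * α L * (3 * K + 1) ≤
          D * ((3 * K + 3) * L) * α L * (3 * K + 1) := by gcongr
      _ = ((3 * K + 1) * (D * (3 * K + 3))) * (L * α L) := by ring
      _ ≤ E * (L * α L) := mul_le_mul_of_nonneg_right hE (by positivity)
      _ = b := by rw [hbdef]; ring
  have hi : L + K * (2 * L + 1) ≤ 3 * K * L + (2 * L + 1) := by nlinarith only [hL, hK]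
  have h1 := h.iter hL hq hq1 K hi
  have hanti : α ((3 * K + 1) * L) ≤ α (L + K * (2 * L + 1)) :=
    h.anti _ _ (by nlinarith only [hL, hK])
  have h2 := hanti.trans h1
  have hq0 : 0 ≤ q := by positivity
  have h3 : (3 * (K : ℝ) + 1) * q ^ K ≤ b ^ K := by
    rw [hqdef, div_pow, mul_div_assoc']
    rw [div_le_iff₀ (by positivity)]
    have h4 : (3 * (K : ℝ) + 1) ≤ (3 * K + 1) ^ K := by
      calc (3 * (K : ℝ) + 1) = (3 * K + 1) ^ 1 := (pow_one _).symm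
        _ ≤ (3 * K + 1) ^ K := pow_le_pow_right₀ (by linarith) hK
    calc (3 * (K : ℝ) + 1) * b ^ K ≤ (3 * K + 1) ^ K * b ^ K := by gcongr
      _ = _ := by ring
  calc E * ((3 * K + 1) * L : ℕ) * α ((3 * K + 1) * L) ≤
        E * ((3 * K + 1) * L : ℕ) * (q ^ K * α L) := by gcongr
    _ = ((3 * (K : ℝ) + 1) * q ^ K) * b := by rw [hbdef]; push_cast; ring
    _ ≤ b ^ K * b := by gcongr
    _ = b ^ (K + 1) := (pow_succ _ _).symm

/-- decay along a geometric sequence of scales -/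
lemma geom {K : ℕ} (hK : 1 ≤ K) : ∃ R0 : ℕ, 1 ≤ R0 ∧ ∀ j : ℕ,
    α ((3 * K + 1) ^ j * R0) ≤ Real.exp (-((K : ℝ) + 1) ^ j) := by
  have hKr : (1 : ℝ) ≤ K := by exact_mod_cast hK
  have hD := h.D_pos
  set E : ℝ := max 1 ((3 * K + 1) * (D * (3 * K + 3))) with hEdef
  have hE1 : 1 ≤ E := le_max_left _ _
  have hE : (3 * (K : ℝ) + 1) * (D * (3 * K + 3)) ≤ E := le_max_right _ _
  obtain ⟨R0, hR0, hsm⟩ := h.small (2 * Real.exp (-1) / E) (by positivity)
  refine ⟨R0, hR0, ?_⟩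
  have key : ∀ j : ℕ, E * ((3 * K + 1) ^ j * R0 : ℕ) * α ((3 * K + 1) ^ j * R0) ≤
      Real.exp (-((K : ℝ) + 1) ^ j) := by
    intro j
    induction j with
    | zero =>
      simp only [pow_zero, one_mul]
      rw [le_div_iff₀ (by positivity)] at hsm
      have h1 := h.nonneg R0
      have h2 : 0 ≤ E * α R0 := by positivity
      nlinarith only [hsm, h2]
    | succ j ih =>
      have hL : 1 ≤ (3 * K + 1) ^ j * R0 :=
        Nat.one_le_iff_ne_zero.2 (Nat.mul_ne_zero (by positivity) (by omega))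
      have h1 : Real.exp (-((K : ℝ) + 1) ^ j) ≤ 1 := by
        rw [Real.exp_le_one_iff]
        have : (0 : ℝ) ≤ ((K : ℝ) + 1) ^ j := by positivity
        linarith
      have h2 := h.mult hK hE hE1 hL (ih.trans h1)
      have e : (3 * K + 1) ^ (j + 1) * R0 = (3 * K + 1) * ((3 * K + 1) ^ j * R0) := by ring
      rw [e]
      refine h2.trans ?_
      have h3 : 0 ≤ E * ((3 * K + 1) ^ j * R0 : ℕ) * α ((3 * K + 1) ^ j * R0) :=
        mul_nonneg (by positivity) (h.nonneg _)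
      refine (pow_le_pow_left₀ h3 ih _).trans (le_of_eq ?_)
      rw [← Real.exp_nat_mul]
      congr 1
      push_cast
      ring
  intro j
  have h1 := key j
  have h2 : (1 : ℝ) ≤ E * ((3 * K + 1) ^ j * R0 : ℕ) := by
    have : 1 ≤ (3 * K + 1) ^ j * R0 :=
      Nat.one_le_iff_ne_zero.2 (Nat.mul_ne_zero (by positivity) (by omega))
    have h3 : (1 : ℝ) ≤ ((3 * K + 1) ^ j * R0 : ℕ) := by exact_mod_cast this
    nlinarith only [hE1, h3]
  have h3 := h.nonneg ((3 * K + 1) ^ j * R0)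
  nlinarith only [h1, h2, h3]

/-- the stretched exponential decay with every exponent smaller than one -/
theorem stretched {γ : ℝ} (hγ0 : 0 < γ) (hγ1 : γ < 1) : ∃ C c : ℝ, 0 < C ∧ 0 < c ∧
    ∀ R : ℕ, α R ≤ C * Real.exp (-c * (R : ℝ) ^ γ) := by
  -- choice of `K`
  obtain ⟨K, hK1, hK⟩ : ∃ K : ℕ, 1 ≤ K ∧ ((3 * K + 1 : ℕ) : ℝ) ^ γ ≤ (K : ℝ) + 1 := by
    have h1 : Tendsto (fun K : ℕ => (K : ℝ) ^ (1 - γ)) atTop atTop :=
      (tendsto_rpow_atTop (by linarith)).comp tendsto_natCast_atTop_atTop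
    obtain ⟨K, hK, hK2⟩ := ((h1.eventually_ge_atTop 4).and (eventually_ge_atTop 1)).exists
    refine ⟨K, hK2, ?_⟩
    have hK3 : (1 : ℝ) ≤ K := by exact_mod_cast hK2
    have hK0 : (0 : ℝ) < K := by linarith
    calc ((3 * K + 1 : ℕ) : ℝ) ^ γ ≤ (4 * (K : ℝ)) ^ γ := by
          refine Real.rpow_le_rpow (by positivity) ?_ hγ0.le
          push_cast; linarith
      _ = 4 ^ γ * (K : ℝ) ^ γ := Real.mul_rpow (by norm_num) hK0.le
      _ ≤ 4 * (K : ℝ) ^ γ := by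
          refine mul_le_mul_of_nonneg_right ?_ (by positivity)
          calc (4 : ℝ) ^ γ ≤ 4 ^ (1 : ℝ) :=
                Real.rpow_le_rpow_of_exponent_le (by norm_num) hγ1.le
            _ = 4 := Real.rpow_one 4
      _ ≤ (K : ℝ) ^ (1 - γ) * (K : ℝ) ^ γ := by gcongr
      _ = K := by rw [← Real.rpow_add hK0]; simp
      _ ≤ (K : ℝ) + 1 := by linarith
  obtain ⟨R0, hR0, hg⟩ := h.geom hK1
  have hR0r : (0 : ℝ) < R0 := by exact_mod_cast hR0
  have hKr : (1 : ℝ) ≤ K := by exact_mod_cast hK1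
  set c : ℝ := 1 / ((K + 1) * (R0 : ℝ) ^ γ) with hc
  have hc0 : 0 < c := by positivity
  refine ⟨Real.exp 1, c, Real.exp_pos _, hc0, fun R => ?_⟩
  rw [← Real.exp_add]
  by_cases hR : R < R0
  · have h1 : c * (R : ℝ) ^ γ ≤ 1 := by
      have h2 : (R : ℝ) ^ γ ≤ (R0 : ℝ) ^ γ :=
        Real.rpow_le_rpow (by positivity) (by exact_mod_cast hR.le) hγ0.le
      have h3 : (0 : ℝ) < (R0 : ℝ) ^ γ := by positivity
      rw [hc, one_div_mul_eq_div, div_le_one (by positivity)]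
      nlinarith only [h2, h3, hKr]
    have h2 : (1 : ℝ) ≤ Real.exp (1 + -c * (R : ℝ) ^ γ) := by
      rw [Real.one_le_exp_iff]; linarith
    exact (h.le_one R).trans h2
  · push Not at hR
    -- the scale below `R`
    obtain ⟨j, hj1, hj2⟩ : ∃ j : ℕ, (3 * K + 1) ^ j * R0 ≤ R ∧ R < (3 * K + 1) ^ (j + 1) * R0 := by
      have hex : ∃ j : ℕ, R < (3 * K + 1) ^ j * R0 := by
        refine ⟨R, ?_⟩
        have h1 : R < (3 * K + 1) ^ R := Nat.lt_pow_self (by omega)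
        nlinarith only [h1, hR0, hR]
      classical
      have hmin := fun m => Nat.find_min hex (m := m)
      have hspec := Nat.find_spec hex
      set j' := Nat.find hex with hj'
      have hj0 : j' ≠ 0 := by
        intro h0
        rw [h0] at hspec
        simp at hspec
        omega
      obtain ⟨j, hj⟩ := Nat.exists_eq_succ_of_ne_zero hj0
      refine ⟨j, ?_, ?_⟩
      · have := hmin j (by omega)
        push Not at this
        exact this
      · rw [hj] at hspec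
        exact hspec
    have h1 := (h.anti _ _ hj1).trans (hg j)
    refine h1.trans ?_
    rw [Real.exp_le_exp]
    have h2 : (R : ℝ) ^ γ ≤ ((K : ℝ) + 1) ^ (j + 1) * (R0 : ℝ) ^ γ := by
      have h3 : (R : ℝ) ≤ ((3 * K + 1 : ℕ) : ℝ) ^ (j + 1) * R0 := by exact_mod_cast hj2.le
      calc (R : ℝ) ^ γ ≤ (((3 * K + 1 : ℕ) : ℝ) ^ (j + 1) * R0) ^ γ :=
            Real.rpow_le_rpow (by positivity) h3 hγ0.le
        _ = (((3 * K + 1 : ℕ) : ℝ) ^ (j + 1)) ^ γ * (R0 : ℝ) ^ γ :=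
            Real.mul_rpow (by positivity) (by positivity)
        _ = (((3 * K + 1 : ℕ) : ℝ) ^ γ) ^ (j + 1) * (R0 : ℝ) ^ γ := by
            rw [← Real.rpow_natCast, ← Real.rpow_mul (by positivity), mul_comm _ γ,
              Real.rpow_mul (by positivity), Real.rpow_natCast]
        _ ≤ ((K : ℝ) + 1) ^ (j + 1) * (R0 : ℝ) ^ γ := by gcongr
    have h4 : c * (R : ℝ) ^ γ ≤ ((K : ℝ) + 1) ^ j := by
      rw [hc, one_div_mul_eq_div, div_le_iff₀ (by positivity)]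
      refine h2.trans (le_of_eq ?_)
      ring
    linarith

/-- Exponential decay up to an arbitrarily small power of the logarithm in the exponent. -/
theorem nearly {ε : ℝ} (hε : 0 < ε) : ∃ C c : ℝ, 0 < C ∧ 0 < c ∧
    ∀ R : ℕ, α R ≤ C * Real.exp (-c * R / (Real.log (R + 3)) ^ ε) := by
  set γ : ℝ := 1 / (1 + ε) with hγdef
  have hγ0 : 0 < γ := by positivity
  have hγ1 : γ < 1 := by
    rw [hγdef, div_lt_one (by positivity)]; linarith
  have hγε : (1 / γ) * (1 - γ) = ε := by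
    rw [hγdef]; field_simp; ring
  obtain ⟨C1, c1, hC1, hc1, hst⟩ := h.stretched hγ0 hγ1
  have hD := h.D_pos
  -- the constant `A`
  obtain ⟨A, hA1, hA2, hA3⟩ : ∃ A : ℝ, 1 ≤ A ∧ 1 ≤ c1 * A / 2 ∧
      2 * D * C1 ≤ Real.exp (c1 * A / 2 - 1) := by
    refine ⟨1 + 2 / c1 + 2 / c1 * (2 * D * C1), ?_, ?_, ?_⟩
    · have : 0 ≤ 2 / c1 + 2 / c1 * (2 * D * C1) := by positivity
      linarith
    · have e : c1 * (1 + 2 / c1 + 2 / c1 * (2 * D * C1)) / 2 = c1 / 2 + 1 + 2 * D * C1 := by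
        field_simp
      rw [e]
      have : 0 ≤ 2 * D * C1 := by positivity
      linarith
    · have e : c1 * (1 + 2 / c1 + 2 / c1 * (2 * D * C1)) / 2 - 1 = c1 / 2 + 2 * D * C1 := by
        field_simp
        ring
      rw [e]
      have := Real.add_one_le_exp (c1 / 2 + 2 * D * C1)
      linarith
  set c : ℝ := min c1 (c1 / 6) / (2 * A ^ ε) with hcdef
  have hA0 : 0 < A := by linarith
  have hc : 0 < c := by
    have : 0 < min c1 (c1 / 6) := lt_min hc1 (by positivity)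
    positivity
  refine ⟨C1, c, hC1, hc, fun R => ?_⟩
  set ℓ : ℝ := Real.log (R + 3) with hℓdef
  have hR3 : (0 : ℝ) < (R : ℝ) + 3 := by positivity
  have hℓ1 : 1 ≤ ℓ := by
    rw [hℓdef, Real.le_log_iff_exp_le hR3]
    have := Real.exp_one_lt_d9
    have hR0 : (0 : ℝ) ≤ R := by positivity
    linarith
  have hℓ0 : 0 < ℓ := by linarith
  have hAℓ : 1 ≤ A * ℓ := by nlinarith only [hA1, hℓ1]
  have hAℓ0 : 0 < A * ℓ := by linarith
  set L : ℕ := ⌈(A * ℓ) ^ (1 / γ)⌉₊ with hLdef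
  have hx1 : 1 ≤ (A * ℓ) ^ (1 / γ) := Real.one_le_rpow hAℓ (by positivity)
  have hL1 : (A * ℓ) ^ (1 / γ) ≤ L := Nat.le_ceil _
  have hL2 : (L : ℝ) ≤ 2 * (A * ℓ) ^ (1 / γ) := by
    have := Nat.ceil_lt_add_one (a := (A * ℓ) ^ (1 / γ)) (by positivity)
    rw [← hLdef] at this
    linarith
  have hLr : (1 : ℝ) ≤ L := hx1.trans hL1
  have hL0 : (0 : ℝ) < L := by linarith
  have hLn : 1 ≤ L := by exact_mod_cast hLr
  have hLγ : A * ℓ ≤ (L : ℝ) ^ γ := by
    calc A * ℓ = ((A * ℓ) ^ (1 / γ)) ^ γ := by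
          rw [← Real.rpow_mul hAℓ0.le]; field_simp; simp
      _ ≤ (L : ℝ) ^ γ := Real.rpow_le_rpow (by positivity) hL1 hγ0.le
  have hLε : (L : ℝ) ^ (1 - γ) ≤ 2 * A ^ ε * ℓ ^ ε := by
    calc (L : ℝ) ^ (1 - γ) ≤ (2 * (A * ℓ) ^ (1 / γ)) ^ (1 - γ) :=
          Real.rpow_le_rpow hL0.le hL2 (by linarith)
      _ = 2 ^ (1 - γ) * ((A * ℓ) ^ (1 / γ)) ^ (1 - γ) :=
          Real.mul_rpow (by norm_num) (by positivity)
      _ ≤ 2 * ((A * ℓ) ^ (1 / γ)) ^ (1 - γ) := by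
          refine mul_le_mul_of_nonneg_right ?_ (by positivity)
          calc (2 : ℝ) ^ (1 - γ) ≤ 2 ^ (1 : ℝ) :=
                Real.rpow_le_rpow_of_exponent_le (by norm_num) (by linarith)
            _ = 2 := Real.rpow_one 2
      _ = 2 * A ^ ε * ℓ ^ ε := by
          rw [← Real.rpow_mul hAℓ0.le, hγε, Real.mul_rpow hA0.le hℓ0.le]; ring
  have hLsplit : (L : ℝ) ^ γ = L * ((L : ℝ) ^ (1 - γ))⁻¹ := by
    rw [← Real.rpow_neg hL0.le]
    nth_rw 2 [← Real.rpow_one (L : ℝ)]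
    rw [← Real.rpow_add hL0]
    congr 1
    ring
  have hinv : 1 / (2 * A ^ ε * ℓ ^ ε) ≤ ((L : ℝ) ^ (1 - γ))⁻¹ := by
    rw [inv_eq_one_div]
    exact one_div_le_one_div_of_le (by positivity) hLε
  have hcc1 : c * R / ℓ ^ ε ≤ c1 * (R * (1 / (2 * A ^ ε * ℓ ^ ε))) := by
    have h1 : min c1 (c1 / 6) ≤ c1 := min_le_left _ _
    have e : c * R / ℓ ^ ε = min c1 (c1 / 6) * (R * (1 / (2 * A ^ ε * ℓ ^ ε))) := by
      rw [hcdef]; field_simp
    rw [e]
    exact mul_le_mul_of_nonneg_right h1 (by positivity)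
  have hcc2 : c * R / ℓ ^ ε ≤ c1 / 6 * (R * (1 / (2 * A ^ ε * ℓ ^ ε))) := by
    have h1 : min c1 (c1 / 6) ≤ c1 / 6 := min_le_right _ _
    have e : c * R / ℓ ^ ε = min c1 (c1 / 6) * (R * (1 / (2 * A ^ ε * ℓ ^ ε))) := by
      rw [hcdef]; field_simp
    rw [e]
    exact mul_le_mul_of_nonneg_right h1 (by positivity)
  have eneg : -c * R / ℓ ^ ε = -(c * R / ℓ ^ ε) := by ring
  rw [eneg]
  by_cases hRL : R < L
  · -- small scales: the stretched bound
    have h1 := hst R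
    refine h1.trans ?_
    refine mul_le_mul_of_nonneg_left ?_ hC1.le
    rw [Real.exp_le_exp]
    by_cases hR0 : R = 0
    · subst hR0
      simp [Real.zero_rpow hγ0.ne']
    have hRpos : (0 : ℝ) < R := by
      have : 0 < R := Nat.pos_of_ne_zero hR0
      exact_mod_cast this
    have h2 : (R : ℝ) * ((L : ℝ) ^ (1 - γ))⁻¹ ≤ (R : ℝ) ^ γ := by
      have h3 : (R : ℝ) ^ (1 - γ) ≤ (L : ℝ) ^ (1 - γ) :=
        Real.rpow_le_rpow hRpos.le (by exact_mod_cast hRL.le) (by linarith)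
      have h4 : (R : ℝ) ^ γ = R * ((R : ℝ) ^ (1 - γ))⁻¹ := by
        rw [← Real.rpow_neg hRpos.le]
        nth_rw 2 [← Real.rpow_one (R : ℝ)]
        rw [← Real.rpow_add hRpos]
        congr 1
        ring
      rw [h4]
      refine mul_le_mul_of_nonneg_left ?_ hRpos.le
      exact inv_anti₀ (by positivity) h3
    have h5 : c1 * (R * (1 / (2 * A ^ ε * ℓ ^ ε))) ≤ c1 * (R : ℝ) ^ γ := by
      refine mul_le_mul_of_nonneg_left ?_ hc1.le
      exact (mul_le_mul_of_nonneg_left hinv hRpos.le).trans h2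
    linarith
  · push Not at hRL
    have hRLr : (L : ℝ) ≤ R := by exact_mod_cast hRL
    -- the factor of one step
    set q : ℝ := Real.exp (-(c1 / 2) * (L : ℝ) ^ γ) with hqdef
    have hq1 : q ≤ 1 := by
      rw [hqdef, Real.exp_le_one_iff]
      have : 0 ≤ c1 / 2 * (L : ℝ) ^ γ := by positivity
      linarith
    have hαL : α L ≤ C1 * q ^ 2 := by
      refine (hst L).trans (le_of_eq ?_)
      rw [hqdef, ← Real.exp_nat_mul]
      congr 2
      push_cast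
      ring
    have hpoly : 2 * D * ((R : ℝ) + 3) * C1 * q ≤ 1 := by
      have h1 : q ≤ Real.exp (-(c1 * A / 2) * ℓ) := by
        rw [hqdef, Real.exp_le_exp]
        nlinarith only [hLγ, hc1, mul_le_mul_of_nonneg_left hLγ (by positivity : 0 ≤ c1 / 2)]
      have h2 : (R : ℝ) + 3 = Real.exp ℓ := by rw [hℓdef, Real.exp_log hR3]
      calc 2 * D * ((R : ℝ) + 3) * C1 * q = (2 * D * C1) * (((R : ℝ) + 3) * q) := by ring
        _ ≤ Real.exp (c1 * A / 2 - 1) * (Real.exp ℓ * Real.exp (-(c1 * A / 2) * ℓ)) := by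
            rw [h2]
            gcongr
        _ = Real.exp ((c1 * A / 2 - 1) * (1 - ℓ)) := by
            rw [← Real.exp_add, ← Real.exp_add]; congr 1; ring
        _ ≤ 1 := by
            rw [Real.exp_le_one_iff]
            nlinarith only [hA2, hℓ1]
    have hq0 : 0 < q := Real.exp_pos _
    have hqf : D * ((R : ℝ) + L + 1) * α L ≤ q := by
      have h1 : (R : ℝ) + L + 1 ≤ 2 * (R + 3) := by linarith
      calc D * ((R : ℝ) + L + 1) * α L ≤ D * (2 * (R + 3)) * (C1 * q ^ 2) :=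
            mul_le_mul (mul_le_mul_of_nonneg_left h1 hD) hαL (h.nonneg L) (by positivity)
        _ = (2 * D * ((R : ℝ) + 3) * C1 * q) * q := by ring
        _ ≤ 1 * q := mul_le_mul_of_nonneg_right hpoly hq0.le
        _ = q := one_mul q
    -- number of steps
    set i : ℕ := (R - L) / (2 * L + 1) with hidef
    have hi1 : i * (2 * L + 1) ≤ R - L := Nat.div_mul_le_self _ _
    have hi2 : R - L < (i + 1) * (2 * L + 1) := by
      have h0 := Nat.lt_mul_div_succ (R - L) (show 0 < 2 * L + 1 by omega)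
      rw [← hidef] at h0
      rwa [mul_comm] at h0
    have h1 := h.iter hLn hqf hq1 i (by omega)
    have h2 : α R ≤ α (L + i * (2 * L + 1)) := h.anti _ _ (by omega)
    have h3 : α R ≤ C1 * q ^ (i + 2) := by
      calc α R ≤ q ^ i * α L := h2.trans h1
        _ ≤ q ^ i * (C1 * q ^ 2) := mul_le_mul_of_nonneg_left hαL (by positivity)
        _ = C1 * q ^ (i + 2) := by ring
    refine h3.trans ?_
    refine mul_le_mul_of_nonneg_left ?_ hC1.le
    rw [hqdef, ← Real.exp_nat_mul, Real.exp_le_exp]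
    have hi3 : (R : ℝ) - L ≤ (i + 1) * (2 * L + 1) := by
      have h4 : ((R - L : ℕ) : ℝ) ≤ ((i + 1) * (2 * L + 1) : ℕ) := by exact_mod_cast hi2.le
      rw [Nat.cast_sub hRL] at h4
      push_cast at h4
      exact h4
    have hi4 : (R : ℝ) / (3 * L) ≤ (i + 2 : ℕ) := by
      rw [div_le_iff₀ (by positivity)]
      push_cast
      have hi0 : (0 : ℝ) ≤ i := by positivity
      nlinarith only [hi3, hLr, hi0]
    have h5 : c1 / 6 * (R * (1 / (2 * A ^ ε * ℓ ^ ε))) ≤ ((i + 2 : ℕ) : ℝ) * (c1 / 2 * (L : ℝ) ^ γ) := by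
      calc c1 / 6 * (R * (1 / (2 * A ^ ε * ℓ ^ ε))) ≤
            c1 / 6 * (R * ((L : ℝ) ^ (1 - γ))⁻¹) := by gcongr
        _ = (R / (3 * L)) * (c1 / 2 * (L * ((L : ℝ) ^ (1 - γ))⁻¹)) := by
            field_simp
            ring
        _ = (R / (3 * L)) * (c1 / 2 * (L : ℝ) ^ γ) := by rw [← hLsplit]
        _ ≤ ((i + 2 : ℕ) : ℝ) * (c1 / 2 * (L : ℝ) ^ γ) := by gcongr
    have e : ((i + 2 : ℕ) : ℝ) * (-(c1 / 2) * (L : ℝ) ^ γ) =
        -(((i + 2 : ℕ) : ℝ) * (c1 / 2 * (L : ℝ) ^ γ)) := by ring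
    rw [e]
    linarith

end Rec

/-! ### The model -/

section model

variable {n : ℕ}

/-- bound of the expectations of the current and of the spin at the center of a box -/
def MC (n : ℕ) (β : ℝ) (R : ℤ) (M : ℝ) : Prop := MA n β R M ∧ MB n β R M

/-- best bound -/
noncomputable def al (n : ℕ) (β : ℝ) (R : ℕ) : ℝ := sInf {M : ℝ | 0 ≤ M ∧ MC n β R M}

lemma al_set_bdd (n : ℕ) (β : ℝ) (R : ℕ) : BddBelow {M : ℝ | 0 ≤ M ∧ MC n β R M} :=
  ⟨0, fun _ h => h.1⟩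

lemma al_nonneg (n : ℕ) (β : ℝ) (R : ℕ) : 0 ≤ al n β R := Real.sInf_nonneg fun _ h => h.1

lemma al_le {β : ℝ} {R : ℕ} {M : ℝ} (h0 : 0 ≤ M) (h : MC n β R M) : al n β R ≤ M :=
  csInf_le (al_set_bdd n β R) ⟨h0, h⟩

variable [NeZero n]

lemma MC_one (β : ℝ) (R : ℤ) : MC n β R 1 := ⟨MA_one β R, MB_one β R⟩

lemma MA_al (β : ℝ) (R : ℕ) : MA n β R (al n β R) := by
  intro e he P σ
  exact le_csInf ⟨1, zero_le_one, MC_one β R⟩ fun M hM => hM.2.1 e he P σ

lemma MB_al (β : ℝ) (R : ℕ) : MB n β R (al n β R) := by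
  intro σ w hw
  exact le_csInf ⟨1, zero_le_one, MC_one β R⟩ fun M hM => hM.2.2 σ w hw

lemma al_le_one (β : ℝ) (R : ℕ) : al n β R ≤ 1 := al_le zero_le_one (MC_one β R)

lemma box_tower {β : ℝ} {R R' : ℤ} (h : R ≤ R') {f : (Z2 → Spin n) → ℝ} (hf : Continuous f)
    (σ : Z2 → Spin n) :
    Gc β (-R', -R') (2 * R') (Gc β (-R, -R) (2 * R) f) σ = Gc β (-R', -R') (2 * R') f σ := by
  have hW := continuous_W (n := n) β (-R', -R') (2 * R')
  have hsub : SubBox (-R, -R) (2 * R) (-R', -R') (2 * R') := by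
    simp only [SubBox]
    omega
  exact Gb_Gb hsub.inn_sub hW (continuous_W _ _ _) hf (noDep_sub_PSb hsub _) σ

lemma box_mono {β : ℝ} {R R' : ℤ} (h : R ≤ R') {f : (Z2 → Spin n) → ℝ} (hf : Continuous f)
    {M : ℝ} (hM : ∀ σ, Gc β (-R, -R) (2 * R) f σ ≤ M) (σ : Z2 → Spin n) :
    Gc β (-R', -R') (2 * R') f σ ≤ M := by
  have hW := continuous_W (n := n) β (-R', -R') (2 * R')
  rw [← box_tower h hf]
  have h2 := Gb_mono (D := inn (-R', -R') (2 * R')) hW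
    (continuous_Gc β (-R, -R) (2 * R) hf) (continuous_const (y := M)) hM σ
  rwa [Gb_const hW] at h2

lemma MA_mono {β : ℝ} {R R' : ℤ} (h : R ≤ R') {M : ℝ} (hM : MA n β R M) : MA n β R' M :=
  fun e he P σ => box_mono h (continuous_cur P _ _) (fun τ => hM e he P τ) σ

lemma MB_mono {β : ℝ} {R R' : ℤ} (h : R ≤ R') {M : ℝ} (hM : MB n β R M) : MB n β R' M :=
  fun σ w hw => box_mono h (continuous_ip w _) (fun τ => hM τ w hw) σ

lemma al_anti (β : ℝ) {R R' : ℕ} (h : R ≤ R') : al n β R' ≤ al n β R :=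
  al_le (al_nonneg n β R) ⟨MA_mono (by exact_mod_cast h) (MA_al β R),
    MB_mono (by exact_mod_cast h) (MB_al β R)⟩

lemma locIn_Gb {S D : Finset Z2} {H f : (Z2 → Spin n) → ℝ} (hH : LocIn S H) (hf : LocIn S f) :
    LocIn S (Gb D H f) := by
  intro σ σ' hσ
  have key : ∀ g : (Z2 → Spin n) → ℝ, LocIn S g → Av D g σ = Av D g σ' := by
    intro g hg
    unfold Av
    congr 1
    funext ξ
    refine hg _ _ fun x hx => ?_
    by_cases hxD : x ∈ D
    · rw [Finset.piecewise_eq_of_mem _ _ _ hxD, Finset.piecewise_eq_of_mem _ _ _ hxD]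
    · rw [Finset.piecewise_eq_of_notMem _ _ _ hxD, Finset.piecewise_eq_of_notMem _ _ _ hxD,
        hσ x hx]
  unfold Gb
  rw [key _ (fun τ τ' hτ => by rw [hf τ τ' hτ, hH τ τ' hτ]),
    key _ (fun τ τ' hτ => by rw [hH τ τ' hτ])]

lemma locIn_Fc {β : ℝ} {R : ℤ} (hR : 0 < R) (P : Pl n) {e : Z2} (he : e = (1, 0) ∨ e = (0, 1)) :
    LocIn (clo (-R, -R) (2 * R)) (Fc β R P e) := by
  have h0 : (0, 0) ∈ clo (-R, -R) (2 * R) := by
    rw [mem_clo]; simp only; omega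
  have h1 := mem_clo_e hR he
  refine locIn_Gb (locIn_PSb _ _ _) fun σ σ' h => ?_
  unfold cur
  rw [h _ h0, h _ h1]

lemma locIn_Fw {β : ℝ} {R : ℤ} (hR : 0 < R) (w : E n) :
    LocIn (clo (-R, -R) (2 * R)) (Fw β R w) := by
  have h0 : (0, 0) ∈ clo (-R, -R) (2 * R) := by
    rw [mem_clo]; simp only; omega
  refine locIn_Gb (locIn_PSb _ _ _) fun σ σ' h => ?_
  beta_reduce
  rw [h _ h0]

/-- the current is odd under a half turn -/
lemma Fc_odd (hn : 3 ≤ n) {β : ℝ} {R : ℤ} (hR : 0 < R) (P : Pl n) {e : Z2}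
    (he : e = (1, 0) ∨ e = (0, 1)) :
    ∃ Q : Pl n, ∀ σ, Fc β R P e (act (Q.rg fun _ => Real.pi) σ) = -Fc β R P e σ := by
  obtain ⟨T, hT⟩ := exists_tri_plane hn P
  refine ⟨T.cyc.cyc.pA, fun σ => ?_⟩
  have h := Fc_act_AB (β := β) hR T.cyc.cyc (f := fun _ => Real.pi) (t := Real.pi) he
    (fun _ _ => rfl) σ
  have e1 : T.cyc.cyc.pC = P := hT
  rw [e1, Real.cos_pi, Real.sin_pi] at h
  rw [h]
  ring

/-- the spin is odd under a half turn -/
lemma Fw_odd (hn : 3 ≤ n) {β : ℝ} {R : ℤ} (hR : 0 < R) {w : E n} (hw : ‖w‖ = 1) :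
    ∃ Q : Pl n, ∀ σ, Fw β R w (act (Q.rg fun _ => Real.pi) σ) = -Fw β R w σ := by
  obtain ⟨T, hT⟩ := Vale.Agent.P163.MW.exists_tri hn hw
  refine ⟨T.pA, fun σ => ?_⟩
  have h := Fw_act_a (β := β) hR T.pA (f := fun _ => Real.pi) (t := Real.pi)
    (fun _ _ => rfl) σ
  have e1 : T.pA.a = w := hT
  rw [e1, Real.cos_pi, Real.sin_pi] at h
  rw [h]
  ring

lemma odd_step {β : ℝ} (hβ : 0 ≤ β) {r L : ℕ} (hL : 1 ≤ L)
    (Q : Pl n) {f : (Z2 → Spin n) → ℝ} (hf : Continuous f)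
    (hloc : LocIn (clo (-(r : ℤ), -(r : ℤ)) (2 * (r : ℤ)))
      (Gc β (-(r : ℤ), -(r : ℤ)) (2 * (r : ℤ)) f))
    (hodd : ∀ σ, Gc β (-(r : ℤ), -(r : ℤ)) (2 * (r : ℤ)) f (act (Q.rg fun _ => Real.pi) σ) =
      -Gc β (-(r : ℤ), -(r : ℤ)) (2 * (r : ℤ)) f σ)
    (hB : ∀ σ, |Gc β (-(r : ℤ), -(r : ℤ)) (2 * (r : ℤ)) f σ| ≤ al n β r) (σ : Z2 → Spin n) :
    Gc β (-((r + 2 * L + 1 : ℕ) : ℤ), -((r + 2 * L + 1 : ℕ) : ℤ))
        (2 * ((r + 2 * L + 1 : ℕ) : ℤ)) f σ ≤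
      al n β r / 2 * (Real.exp (Real.pi * (16 * β) * (r + L + 1) * al n β L) - 1) := by
  have hL' : (0 : ℤ) < L := by exact_mod_cast hL
  have hk := kbound hβ (Int.natCast_nonneg r) hL' (al_nonneg n β L) (MA_al β L) Q
    (continuous_Gc β _ _ hf) hloc hodd hB σ
  have e3 : ((r + 2 * L + 1 : ℕ) : ℤ) = (r : ℤ) + 2 * L + 1 := by push_cast; ring
  rw [box_tower (by omega) hf] at hk
  rw [e3]
  have e4 : Real.pi * (16 * (((r : ℤ) : ℝ) + ((L : ℤ) : ℝ) + 1) * β * al n β L) =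
      Real.pi * (16 * β) * (r + L + 1) * al n β L := by
    rw [Int.cast_natCast, Int.cast_natCast]; ring
  rw [e4] at hk
  exact (le_abs_self _).trans hk

/-- one step of the recursion -/
theorem al_step (hn : 3 ≤ n) {β : ℝ} (hβ : 0 ≤ β) {r L : ℕ} (hr : 1 ≤ r) (hL : 1 ≤ L) :
    al n β (r + 2 * L + 1) ≤
      al n β r / 2 * (Real.exp (Real.pi * (16 * β) * (r + L + 1) * al n β L) - 1) := by
  have hr' : (0 : ℤ) < r := by exact_mod_cast hr
  have hal := al_nonneg n β L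
  have hal2 := al_nonneg n β r
  have hx : 0 ≤ Real.pi * (16 * β) * (r + L + 1) * al n β L :=
    mul_nonneg (mul_nonneg (mul_nonneg Real.pi_pos.le (by linarith)) (by positivity)) hal
  have hexp : (1 : ℝ) ≤ Real.exp (Real.pi * (16 * β) * (r + L + 1) * al n β L) :=
    Real.one_le_exp hx
  have h0 : 0 ≤ al n β r / 2 * (Real.exp (Real.pi * (16 * β) * (r + L + 1) * al n β L) - 1) :=
    mul_nonneg (by linarith) (by linarith)
  refine al_le h0 ⟨?_, ?_⟩
  · intro e he P σ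
    obtain ⟨Q, hQ⟩ := Fc_odd hn (β := β) hr' P he
    exact odd_step hβ hL Q (continuous_cur P _ _) (locIn_Fc hr' P he) hQ
      (fun τ => Fc_abs_le (MA_al β r) P he τ) σ
  · intro σ w hw
    obtain ⟨Q, hQ⟩ := Fw_odd hn (β := β) hr' hw
    exact odd_step hβ hL Q (continuous_ip w _) (locIn_Fw hr' w) hQ
      (fun τ => Fw_abs_le (MB_al β r) hw τ) σ

end model

variable {n : ℕ}

/-- decay of the spin and of the current faster than the inverse of the radius -/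
theorem MC_decay (hn : 3 ≤ n) {β : ℝ} (hβ : 0 ≤ β) {ε : ℝ} (hε : 0 < ε) :
    ∃ (R : ℤ) (M : ℝ), 0 < R ∧ 0 ≤ M ∧ MC n β R M ∧ (2 * R + 1) * M ≤ ε := by
  have : NeZero n := ⟨by omega⟩
  obtain ⟨L, hL, ht⟩ := tt_small hn hβ (ε := 1 / 1024) (by norm_num)
  obtain ⟨m1, hm1⟩ : ∃ m1 : ℤ, 439 * β ≤ m1 := ⟨⌈439 * β⌉, Int.le_ceil _⟩
  obtain ⟨m2, hm2, hstep⟩ := Vale.Agent.P163.MW_step hn hβ hL ht.le
  let m0 : ℤ := max m1 m2
  have hm02 : m2 ≤ m0 := le_max_right _ _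
  have hm0 : 0 < m0 := lt_of_lt_of_le hm2 hm02
  have key : ∀ k : ℕ, MC n β (2 ^ k * (m0 * L)) (1 / 4 ^ k) := by
    intro k
    induction k with
    | zero => simpa using MC_one (n := n) β (m0 * L)
    | succ k ih =>
      have h1 : (1 : ℤ) ≤ 2 ^ k := one_le_pow₀ (by norm_num)
      have h2 : m0 ≤ 2 ^ k * m0 := by nlinarith only [h1, hm0]
      have e1 : (2 : ℤ) ^ k * (m0 * L) = (2 ^ k * m0) * L := by ring
      rw [e1] at ih
      have h4 : (m1 : ℝ) ≤ ((2 ^ k * m0 : ℤ) : ℝ) := by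
        exact_mod_cast (le_max_left m1 m2).trans h2
      have h3 := MA_step hn hβ hL ht.le (m := 2 ^ k * m0) (by positivity)
        (hm1.trans h4) (M := 1 / 4 ^ k) (by positivity) ih.1
      have h5 := hstep (2 ^ k * m0) (hm02.trans h2) (1 / 4 ^ k) (by positivity) ih.2
      have e2 : 2 * (2 ^ k * m0 * L) = 2 ^ (k + 1) * (m0 * L) := by ring
      have e3 : (1 : ℝ) / 4 ^ k / 4 = 1 / 4 ^ (k + 1) := by
        rw [div_div, ← pow_succ]
      rw [e2, e3] at h3 h5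
      exact ⟨h3, h5⟩
  have hmL : (0 : ℝ) < m0 * L := by exact_mod_cast mul_pos hm0 hL
  obtain ⟨k, hk⟩ := exists_nat_gt ((2 * (m0 * L) + 1) / ε)
  have hk2 : (k : ℝ) < 2 ^ k := by exact_mod_cast Nat.lt_two_pow_self
  refine ⟨2 ^ k * (m0 * L), 1 / 4 ^ k, by positivity, by positivity, key k, ?_⟩
  push_cast
  have h4 : (4 : ℝ) ^ k = 2 ^ k * 2 ^ k := by
    rw [← mul_pow]; norm_num
  have h2k : (1 : ℝ) ≤ 2 ^ k := one_le_pow₀ (by norm_num)
  rw [div_lt_iff₀ hε] at hk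
  rw [h4, mul_one_div, div_le_iff₀ (by positivity)]
  have h5 : 2 * (m0 * L : ℝ) + 1 ≤ ε * 2 ^ k := by nlinarith only [hk, hε, hk2]
  nlinarith only [h2k, h5]

lemma al_small (hn : 3 ≤ n) {β : ℝ} (hβ : 0 ≤ β) {ε : ℝ} (hε : 0 < ε) :
    ∃ R : ℕ, 1 ≤ R ∧ (2 * R + 1) * al n β R ≤ ε := by
  obtain ⟨R, M, hR, hM, hMC, hle⟩ := MC_decay hn hβ hε
  obtain ⟨R', rfl⟩ := Int.eq_ofNat_of_zero_le hR.le
  refine ⟨R', by exact_mod_cast hR, ?_⟩
  have h1 := al_le hM hMC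
  refine le_trans ?_ hle
  rw [Int.cast_natCast]
  exact mul_le_mul_of_nonneg_left h1 (by positivity)

/-- the recursion holds for the model -/
theorem rec_al [NeZero n] (hn : 3 ≤ n) {β : ℝ} (hβ : 0 ≤ β) :
    Rec (al n β) (Real.pi * (16 * β)) where
  D_pos := by positivity
  nonneg := al_nonneg n β
  le_one := al_le_one β
  anti _ _ h := al_anti β h
  step _ _ hr hL := al_step hn hβ hr hL
  small _ hε := al_small hn hβ hε

/-- Nearly exponential decay of the magnetization, for arbitrary boundary conditions. -/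
theorem MB_nearly (hn : 3 ≤ n) {β : ℝ} (hβ : 0 ≤ β) {ε : ℝ} (hε : 0 < ε) :
    ∃ C c : ℝ, 0 < C ∧ 0 < c ∧
      ∀ R : ℕ, MB n β R (C * Real.exp (-c * R / (Real.log (R + 3)) ^ ε)) := by
  have : NeZero n := ⟨by omega⟩
  obtain ⟨C, c, hC, hc, h⟩ := (rec_al hn hβ).nearly hε
  exact ⟨C, c, hC, hc, fun R σ w hw => (MB_al β R σ w hw).trans (h R)⟩

end Vale.Agent.P163.H841
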