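import Vale.Agent.P163.H841.Rec
import Vale.Agent.P163.H841.Defs

/-!
From the kernels of the development to the finite-volume states and the Gibbs states of the
statement.
-/

open MeasureTheory Filter Topology
open scoped RealInnerProductSpace

set_option linter.unusedSectionVars false

namespace Vale.Agent.P163.H841

open Vale.Agent.P163 Vale.Agent.P163.MW Vale.Agent.P163.Universal

variable {n : ℕ}

lemma nbrs_eq (x : Z2) : nbrs x = nb4 x := rfl

lemma glue_eq (Λ : Finset Z2) (ξ η : Z2 → Spin n) :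
    glue Λ (fun v => ξ v.1) η = Λ.piecewise ξ η := by
  funext x
  unfold glue
  by_cases h : x ∈ Λ
  · rw [dif_pos h, Finset.piecewise_eq_of_mem _ _ _ h]
  · rw [dif_neg h, Finset.piecewise_eq_of_notMem _ _ _ h]

/-- energy of a finite region with the spins outside as boundary condition -/
noncomputable def HL (β : ℝ) (Λ : Finset Z2) (σ : Z2 → Spin n) : ℝ := β * bondSum Λ σ

lemma continuous_bondSum (Λ : Finset Z2) : Continuous (bondSum (n := n) Λ) := by
  unfold bondSum
  refine continuous_finsetSum _ fun x _ => continuous_finsetSum _ fun y _ => ?_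
  refine continuous_const.mul ?_
  exact (continuous_subtype_val.comp (continuous_apply x)).inner
    (continuous_subtype_val.comp (continuous_apply y))

lemma continuous_HL (β : ℝ) (Λ : Finset Z2) : Continuous (HL (n := n) β Λ) :=
  continuous_const.mul (continuous_bondSum Λ)

lemma continuous_glue (Λ : Finset Z2) (η : Z2 → Spin n) :
    Continuous fun s : Λ → Spin n => glue Λ s η := by
  refine continuous_pi fun x => ?_
  unfold glue
  by_cases h : x ∈ Λ
  · simp only [h, dif_pos]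
    exact continuous_apply _
  · simp only [h, dif_neg, not_false_eq_true]
    exact continuous_const

variable [NeZero n]

lemma Av_eq_glue (Λ : Finset Z2) {F : (Z2 → Spin n) → ℝ} (hF : Continuous F)
    (η : Z2 → Spin n) :
    Av Λ F η = ∫ s, F (glue Λ s η) ∂(Measure.pi fun _ : Λ => Model.unif n) := by
  have e1 : (fun _ : Λ => Model.unif n) = fun _ => unif n := by
    funext _; exact model_unif n
  have hQ : (Measure.pi fun _ : Λ => unif n) = QQ Λ n := by
    unfold QQ; rw [Measure.infinitePi_eq_pi]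
  rw [e1, hQ, ← integral_chart (n := n) (c := fun v : Λ => v.1) Subtype.val_injective
    (F := fun s => F (glue Λ s η)) (hF.comp (continuous_glue Λ η))]
  unfold Av
  simp only [glue_eq]

lemma integral_bcState (β : ℝ) (Λ : Finset Z2) {F : (Z2 → Spin n) → ℝ} (hF : Continuous F)
    (η : Z2 → Spin n) :
    ∫ s, F (glue Λ s η) ∂(bcState n β Λ η) = Gb Λ (HL β Λ) F η := by
  have hH := continuous_HL (n := n) β Λ
  unfold bcState Gb
  rw [integral_tilted, Av_eq_glue Λ (cfe hF hH), Av_eq_glue Λ (cexp hH), ← integral_div]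
  congr 1
  funext s
  rw [smul_eq_mul]
  unfold HL
  ring

/-! ### Locality of the energy -/

lemma mem_nb4_symm {x y : Z2} (h : x ∈ nb4 y) : y ∈ nb4 x :=
  adj_iff.1 (adj_symm (adj_iff.2 h))

lemma not_mem_nb4_self (y : Z2) : y ∉ nb4 y := by
  unfold nb4
  simp only [Finset.mem_insert, Finset.mem_singleton, Prod.ext_iff]
  omega

/-- the part of the bond sum that does not contain the spin at `y` -/
noncomputable def restSum (Λ : Finset Z2) (y : Z2) (σ : Z2 → Spin n) : ℝ :=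
  ∑ x ∈ Λ.erase y, ∑ q ∈ (nb4 x).erase y,
    (if q ∈ Λ then 1 / 2 else 1) * ⟪(σ x : E n), (σ q : E n)⟫

lemma bondSum_split {Λ : Finset Z2} {y : Z2} (hy : y ∈ Λ) (σ : Z2 → Spin n) :
    bondSum Λ σ = restSum Λ y σ + ∑ q ∈ nb4 y, ⟪(σ q : E n), (σ y : E n)⟫ := by
  unfold bondSum restSum
  simp only [nbrs_eq]
  rw [← Finset.add_sum_erase _ _ hy]
  have h1 : ∀ x ∈ Λ.erase y, ∑ q ∈ nb4 x, (if q ∈ Λ then 1 / 2 else 1) *
        ⟪(σ x : E n), (σ q : E n)⟫ =
      (∑ q ∈ (nb4 x).erase y, (if q ∈ Λ then 1 / 2 else 1) * ⟪(σ x : E n), (σ q : E n)⟫) +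
        (if x ∈ nb4 y then 1 / 2 * ⟪(σ x : E n), (σ y : E n)⟫ else 0) := by
    intro x _
    by_cases hx : y ∈ nb4 x
    · rw [← Finset.add_sum_erase _ _ hx, if_pos hy, if_pos (mem_nb4_symm hx), add_comm]
    · rw [Finset.erase_eq_of_notMem hx, if_neg (fun h => hx (mem_nb4_symm h)), add_zero]
  rw [Finset.sum_congr rfl h1, Finset.sum_add_distrib]
  have h2 : ∑ x ∈ Λ.erase y, (if x ∈ nb4 y then 1 / 2 * ⟪(σ x : E n), (σ y : E n)⟫ else 0) =
      ∑ q ∈ nb4 y, (if q ∈ Λ then 1 / 2 * ⟪(σ q : E n), (σ y : E n)⟫ else 0) := by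
    rw [← Finset.sum_filter, ← Finset.sum_filter]
    refine Finset.sum_congr ?_ fun _ _ => rfl
    ext x
    simp only [Finset.mem_filter, Finset.mem_erase]
    constructor
    · rintro ⟨⟨_, h⟩, h'⟩
      exact ⟨h', h⟩
    · rintro ⟨h', h⟩
      exact ⟨⟨fun he => not_mem_nb4_self y (he ▸ h'), h⟩, h'⟩
  rw [h2]
  have h3 : ∑ q ∈ nb4 y, ⟪(σ q : E n), (σ y : E n)⟫ =
      ∑ q ∈ nb4 y, (if q ∈ Λ then 1 / 2 else 1) * ⟪(σ y : E n), (σ q : E n)⟫ +
      ∑ q ∈ nb4 y, (if q ∈ Λ then 1 / 2 * ⟪(σ q : E n), (σ y : E n)⟫ else 0) := by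
    rw [← Finset.sum_add_distrib]
    refine Finset.sum_congr rfl fun q _ => ?_
    rw [real_inner_comm (σ q : E n) (σ y : E n)]
    split_ifs <;> ring
  rw [h3]
  ring

lemma noDep_restSum (Λ : Finset Z2) (y : Z2) : NoDep {y} (restSum (n := n) Λ y) := by
  intro ξ σ
  unfold restSum
  refine Finset.sum_congr rfl fun x hx => Finset.sum_congr rfl fun q hq => ?_
  have h1 : x ∉ ({y} : Finset Z2) := by
    rw [Finset.mem_singleton]; exact (Finset.mem_erase.1 hx).1
  have h2 : q ∉ ({y} : Finset Z2) := by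
    rw [Finset.mem_singleton]; exact (Finset.mem_erase.1 hq).1
  rw [Finset.piecewise_eq_of_notMem _ _ _ h1, Finset.piecewise_eq_of_notMem _ _ _ h2]

lemma noDep_HL_W (β : ℝ) {Λ : Finset Z2} {p : Z2} {l : ℤ} (hsub : inn p l ⊆ Λ) :
    NoDep (inn p l) (fun σ : Z2 → Spin n => HL β Λ σ - W β p l σ) := by
  refine noDep_of_sites _ fun y hy => ?_
  have h1 := noDep_restSum (n := n) Λ y
  have h2 := noDep_W_site (n := n) β p l hy
  intro ξ σ
  have h3 := h1 ξ σ
  have h4 := h2 ξ σ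
  have h5 := bondSum_split (n := n) (hsub hy) σ
  have h6 := bondSum_split (n := n) (hsub hy) (({y} : Finset Z2).piecewise ξ σ)
  simp only at h3 h4 ⊢
  unfold HL
  rw [h5, h6, h3]
  linarith only [h4]

/-! ### The magnetization with arbitrary boundary conditions -/

lemma MB_center {β : ℝ} {R : ℤ} {M : ℝ} (hMB : MB n β R M) (x : Z2) {w : E n} (hw : ‖w‖ = 1)
    (σ : Z2 → Spin n) :
    |Gc β (x.1 - R, x.2 - R) (2 * R) (fun σ => ⟪w, (σ x : E n)⟫) σ| ≤ M := by
  have h := Gc_shift (n := n) β x (-R, -R) (2 * R) (continuous_ip w (0, 0)) σ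
  have e1 : tr x (-R, -R) = (x.1 - R, x.2 - R) := by
    unfold tr; exact Prod.ext (by simp only; ring) (by simp only; ring)
  have e2 : (fun σ : Z2 → Spin n => (fun τ : Z2 → Spin n => ⟪w, (τ (0, 0) : E n)⟫)
      fun v => σ (tr x v)) = fun σ => ⟪w, (σ x : E n)⟫ := by
    funext τ
    have : tr x (0, 0) = x := by unfold tr; exact Prod.ext (by simp) (by simp)
    beta_reduce
    rw [this]
  rw [e1, e2] at h
  rw [h]
  exact Fw_abs_le hMB hw _

lemma region_bound {β : ℝ} {r : ℕ} {M : ℝ} (hMB : MB n β r M) {Λ : Finset Z2} {x : Z2}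
    (hΛ : ∀ y, supDist y x < r → y ∈ Λ) {w : E n} (hw : ‖w‖ = 1) (η : Z2 → Spin n) :
    |∫ s, ⟪w, (glue Λ s η x : E n)⟫ ∂(bcState n β Λ η)| ≤ M := by
  have hf := continuous_ip w x
  have hH := continuous_HL (n := n) β Λ
  have hW := continuous_W (n := n) β (x.1 - r, x.2 - r) (2 * r)
  have hsub : inn (x.1 - (r : ℤ), x.2 - (r : ℤ)) (2 * (r : ℤ)) ⊆ Λ := by
    intro y hy
    refine hΛ y ?_
    rw [mem_inn] at hy
    simp only at hy
    unfold supDist
    rw [max_lt_iff, abs_lt, abs_lt]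
    omega
  rw [integral_bcState β Λ hf η, ← Gb_Gb hsub hH hW hf (noDep_HL_W β hsub) η]
  exact Gb_abs_le hH (continuous_Gb hW hf) (fun τ => MB_center hMB x hw τ) η

/-- Gibbs states -/
lemma gibbs_bound {β : ℝ} {r : ℕ} {M : ℝ} (hMB : MB n β r M) {μ : Measure (Z2 → Spin n)}
    (hμ : IsGibbs n β μ) {x y : Z2} (hxy : (r : ℤ) ≤ supDist y x) :
    |∫ σ, ⟪(σ x : E n), (σ y : E n)⟫ ∂μ| ≤ M := by
  obtain ⟨hprob, hdlr⟩ := hμ
  set Λ : Finset Z2 := inn (x.1 - (r : ℤ), x.2 - (r : ℤ)) (2 * (r : ℤ)) with hΛdef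
  have hf : Continuous fun σ : Z2 → Spin n => ⟪(σ x : E n), (σ y : E n)⟫ :=
    (continuous_subtype_val.comp (continuous_apply x)).inner
      (continuous_subtype_val.comp (continuous_apply y))
  rw [hdlr Λ _ hf]
  have hy : y ∉ Λ := by
    intro h
    rw [hΛdef, mem_inn] at h
    simp only at h
    unfold supDist at hxy
    rcases le_max_iff.1 hxy with h1 | h1 <;> rw [le_abs] at h1 <;> omega
  have hΛ : ∀ z, supDist z x < r → z ∈ Λ := by
    intro z hz
    rw [hΛdef, mem_inn]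
    simp only
    unfold supDist at hz
    rw [max_lt_iff, abs_lt, abs_lt] at hz
    omega
  have hin : ∀ σ : Z2 → Spin n,
      |∫ s, ⟪(glue Λ s σ x : E n), (glue Λ s σ y : E n)⟫ ∂(bcState n β Λ σ)| ≤ M := by
    intro σ
    have h1 := region_bound hMB hΛ (w := (σ y : E n)) (mw_spin_norm _) σ
    have e : (fun s : Λ → Spin n => ⟪(glue Λ s σ x : E n), (glue Λ s σ y : E n)⟫) =
        fun s => ⟪(σ y : E n), (glue Λ s σ x : E n)⟫ := by
      funext s
      have : glue Λ s σ y = σ y := by unfold glue; rw [dif_neg hy]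
      rw [this, real_inner_comm]
    rw [e]
    exact h1
  have h2 := norm_integral_le_of_norm_le_const (μ := μ) (C := M)
    (f := fun σ => ∫ s, ⟪(glue Λ s σ x : E n), (glue Λ s σ y : E n)⟫ ∂(bcState n β Λ σ))
    (Filter.Eventually.of_forall fun σ => by rw [Real.norm_eq_abs]; exact hin σ)
  rw [Real.norm_eq_abs] at h2
  simpa using h2

end Vale.Agent.P163.H841
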